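import Vale.Agent.P098.Five.Spectrum

/-!
# P098, five dimensions: the profile `w ^ 2 = 4 D / 5`

One step of the maximum principle leads from the linear profile with constant `17 / 10`, which lies
above the bound `5 / 3`, to the constant `4 / 5`.
-/

namespace Vale.Agent.P098.Five

open Vale.Agent.P098.Div

theorem band_tail {w : ℝ} (hw : 707 / 1000 ≤ w) (hw2 : w ^ 2 ≤ 17 / 10) (hy : 1 / 2 < w ^ 2) :
    0 < (w - 867 / 1000 * (1 - w ^ 2 * (10 / 17))) ^ 2 + 3 / 4 * (15 / 8 * (w ^ 2 *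
      (32 / 45 - 8 / 3 * (1 - w ^ 2 * (10 / 17))) + 32 / 25 * (1 - w ^ 2 * (10 / 17)))
      - (1 - w ^ 2 * (10 / 17)) ^ 2) := by
  nlinarith [mul_nonneg (sub_nonneg.2 hy.le) (sub_nonneg.2 hw2), sq_nonneg (w - 1),
    mul_nonneg (mul_nonneg (sub_nonneg.2 hy.le) (sub_nonneg.2 hw2)) (sub_nonneg.2 hw)]

theorem band_core {w L : ℝ} (hw : 0 < w) (hw2 : w ^ 2 ≤ 17 / 10) (hL : 4 * L ^ 2 ≤ 3) :
    0 < 8 / 5 * w ^ 2 * (1 / 3 + 4 / 9 * L ^ 2) + (1 - w ^ 2 * (10 / 17))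
      * ((1 / 3 + 4 / 9 * L ^ 2) * (2 * w ^ 2 - 8 * w * (w + 4 / 5 * L)) + 2 * (w + 4 / 5 * L) ^ 2) := by
  obtain ⟨s, hs⟩ : ∃ s, s = 1 - w ^ 2 * (10 / 17) := ⟨_, rfl⟩
  obtain ⟨q, hq⟩ : ∃ q, q = 1 - 8 / 3 * L ^ 2 := ⟨_, rfl⟩
  obtain ⟨R, hR⟩ : ∃ R, R = 15 / 8 * (w ^ 2 * (32 / 45 - 8 / 3 * s) + 32 / 25 * s) - s ^ 2 :=
    ⟨_, rfl⟩
  rw [← hs]
  have e : 15 / 8 * (8 / 5 * w ^ 2 * (1 / 3 + 4 / 9 * L ^ 2) + s
      * ((1 / 3 + 4 / 9 * L ^ 2) * (2 * w ^ 2 - 8 * w * (w + 4 / 5 * L)) + 2 * (w + 4 / 5 * L) ^ 2))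
      = (w + s * L * q) ^ 2 + L ^ 2 * R + (1 - q ^ 2) * (s ^ 2 * L ^ 2) := by
    rw [hR, hq]; ring
  have hs0 : 0 ≤ s := by rw [hs]; linarith
  have hq1 : q ^ 2 ≤ 1 := by rw [hq]; nlinarith [sq_nonneg L]
  have h3 : 0 ≤ (1 - q ^ 2) * (s ^ 2 * L ^ 2) := mul_nonneg (by linarith) (by positivity)
  suffices hh : 0 < (w + s * L * q) ^ 2 + L ^ 2 * R by linarith
  rcases le_or_gt (w ^ 2) (1 / 2) with hy | hy
  · have hR0 : 0 < R := by rw [hR, hs]; nlinarith [sq_nonneg w]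
    rcases eq_or_ne L 0 with hL0 | hL0
    · rw [hL0]
      simpa using pow_pos hw 2
    · positivity
  · have hw7 : 707 / 1000 ≤ w := by nlinarith
    have hsb : s ≤ 707 / 1000 := by rw [hs]; linarith
    have hLq : (L * q) ^ 2 ≤ (867 / 1000) ^ 2 := by
      rw [mul_pow]
      exact (mul_le_mul_of_nonneg_left hq1 (sq_nonneg L)).trans (by linarith)
    have hL2 := (abs_le_of_sq_le_sq' hLq (by norm_num)).1
    have h1 : w - 867 / 1000 * s ≤ w + s * L * q := by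
      linear_combination mul_le_mul_of_nonneg_left hL2 hs0
    have h2 : 0 < w - 867 / 1000 * s := by nlinarith
    have h4 : 0 < (w - 867 / 1000 * s) ^ 2 + 3 / 4 * R := by
      rw [hR, hs]; exact band_tail hw7 hw2 hy
    have h5 : (w - 867 / 1000 * s) ^ 2 ≤ (w + s * L * q) ^ 2 := pow_le_pow_left₀ h2.le h1 2
    rcases le_or_gt 0 R with hR0 | hR0
    · nlinarith [mul_nonneg (sq_nonneg L) hR0, pow_pos h2 2]
    · nlinarith [mul_le_mul_of_nonpos_right (show L ^ 2 ≤ 3 / 4 by linarith) hR0.le]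

/-- The profile of the certificate. -/
noncomputable def prof : ℝ → ℝ := fun D => 4 / 5 * D

theorem deriv_prof : deriv prof = fun _ => 4 / 5 := by
  funext D
  exact ((hasDerivAt_id D).const_mul (4 / 5 : ℝ)).deriv.trans (mul_one _)

theorem profile_prof : Profile 4 prof := by
  refine .step prof (fun D => 17 / 10 * D) (.linear _ (by norm_num))
    (contDiff_const.mul contDiff_id) (fun D hD _ => by simp only [prof]; positivity) ?_
  intro l hl w D hdom hw k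
  obtain ⟨hw0, hD, hD1, hwD⟩ := hdom
  have hL : 4 * l k ^ 2 ≤ 3 := (range_of_spectrum hl k).cap
  simp only at hwD
  rw [deriv_prof, deriv_const]
  refine ⟨by norm_num, ?_⟩
  simp only [mul_zero, zero_mul, sub_zero]
  obtain ⟨L, hLk⟩ : ∃ L, l k = L := ⟨_, rfl⟩
  rw [hLk] at hL ⊢
  obtain ⟨G, hG⟩ : ∃ G, G = 1 / 3 + 4 / 9 * L ^ 2 := ⟨_, rfl⟩
  have hk : katoConst 4 L = G := by rw [hG, katoConst]; norm_num
  rw [hk]
  have hG0 : 0 < G := by rw [hG]; positivity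
  have hcore := band_core (L := L) hw0 (by linarith) hL
  rw [← hG] at hcore
  obtain ⟨Q, hQ⟩ : ∃ Q, Q = G * (2 * w ^ 2 - 8 * w * (w + 4 / 5 * L)) + 2 * (w + 4 / 5 * L) ^ 2 :=
    ⟨_, rfl⟩
  rw [← hQ] at hcore
  have e : 2 * w ^ 2 - 8 * w * (w + 4 / 5 * L) + 2 * (w + 4 / 5 * L) ^ 2 / G = Q / G := by
    rw [hQ, add_div, mul_div_cancel_left₀ _ hG0.ne']
  rw [e, show 2 * (4 / 5) * w ^ 2 + (1 - D) * (Q / G) = (8 / 5 * w ^ 2 * G + (1 - D) * Q) / G by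
    field_simp; ring]
  refine div_pos ?_ hG0
  rcases le_or_gt 0 Q with hQ0 | hQ0
  · have : 0 ≤ (1 - D) * Q := mul_nonneg (by linarith) hQ0
    positivity
  · nlinarith [mul_le_mul_of_nonpos_right (show 1 - D ≤ 1 - w ^ 2 * (10 / 17) by linarith) hQ0.le]

end Vale.Agent.P098.Five
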