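import Vale.Agent.P098.Five.Entries

/-!
# P098, five dimensions: bounds on the cubic invariant

On five intervals of an eigenvalue `l`, `T` over `1024` bounds the cubic invariant from below (`L`)
and from above (`U`). Here `offP` and `rangeP` carry the proof obligations of such a bound.
-/

namespace Vale.Agent.P098.Five

/-- `9 T - 1024 (20 l ^ 3 - 9 l)`. -/
def offP (T : P3 ℤ) : P3 ℤ :=
  pa (pc 9 T) (pc (-1024) (pa (pc 20 (pm (pm lP lP) lP)) (pc (-9) lP)))

/-- `3 - 4 l ^ 2`. -/
def capP : P3 ℤ := pa (cst 3) (pc (-4) (pm lP lP))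

/-- `162 (offP T) ^ 2 - 9216 ^ 2 (3 - 4 l ^ 2) ^ 3`. -/
def rangeP (T : P3 ℤ) : P3 ℤ :=
  pa (pc 162 (pm (offP T) (offP T))) (pc (-(9216 ^ 2)) (pm (pm capP capP) capP))

/-- The lower bound for `1000 l` in `[-867, -433]`. -/
def T0L : P3 ℤ := [[[-1233, -4834, -4750]]]

/-- The upper bound for `1000 l` in `[-867, -433]`. -/
def T0U : P3 ℤ := [[[111, -2760, -4119]]]

/-- The lower bound for `1000 l` in `[-433, 0]`. -/
def T1L : P3 ℤ := [[[-430, -1255, -738]]]

/-- The upper bound for `1000 l` in `[-433, 0]`. -/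
def T1U : P3 ℤ := [[[428, -1219, -2218]]]

/-- The lower bound for `1000 l` in `[0, 433]`. -/
def T2L : P3 ℤ := [[[-428, -1219, 2218]]]

/-- The upper bound for `1000 l` in `[0, 433]`. -/
def T2U : P3 ℤ := [[[430, -1255, 738]]]

/-- The lower bound for `1000 l` in `[433, 700]`. -/
def T3L : P3 ℤ := [[[-144, -2634, 4006]]]

/-- The upper bound for `1000 l` in `[433, 700]`. -/
def T3U : P3 ℤ := [[[928, -3715, 3729]]]

/-- The lower bound for `1000 l` in `[700, 867]`. -/
def T4L : P3 ℤ := [[[-254, -2392, 3885]]]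

/-- The upper bound for `1000 l` in `[700, 867]`. -/
def T4U : P3 ℤ := [[[2415, -7995, 6806]]]

end Vale.Agent.P098.Five
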