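import Vale.Agent.P098.Five.Poly

/-!
# P098, five dimensions: boxes for a quadratic form with polynomial entries

A tree of halvings of a box certifies that a quadratic form in three variables, whose entries are
polynomials in three parameters, is nonnegative on the part `5 w ^ 2 ≤ 4 D` of the box.
-/

namespace Vale.Agent.P098.Five

open Mdl (zero add smul)

/-- The entries of the form `a ν² + b η² + 2 c ν π + 2 d η π + e π²`. -/
structure V5 where
  a : ℤ
  b : ℤ
  c : ℤ
  d : ℤ
  e : ℤ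

instance : Mdl V5 :=
  ⟨⟨0, 0, 0, 0, 0⟩, fun u v => ⟨u.a + v.a, u.b + v.b, u.c + v.c, u.d + v.d, u.e + v.e⟩,
    fun k v => ⟨k * v.a, k * v.b, k * v.c, k * v.d, k * v.e⟩⟩

/-- The value of the form. -/
def qv (ν η π : ℝ) (v : V5) : ℝ :=
  v.a * ν ^ 2 + v.b * η ^ 2 + 2 * v.c * ν * π + 2 * v.d * η * π + v.e * π ^ 2

theorem isLin_qv (ν η π : ℝ) : IsLin (qv ν η π) where
  zero := by simp [qv, Mdl.zero]
  add u v := by simp only [qv, Mdl.add, Int.cast_add]; ring
  smul k v := by simp only [qv, Mdl.smul, Int.cast_mul]; ring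

/-- A sufficient test for positive semidefiniteness. -/
def V5.ok (v : V5) : Bool :=
  (decide (0 < v.a) && decide (0 < v.b) &&
      decide (v.c * v.c * v.b + v.d * v.d * v.a ≤ v.e * v.a * v.b)) ||
    (decide (v.a = 0) && decide (v.b = 0) && decide (v.c = 0) && decide (v.d = 0) && decide (0 ≤ v.e))

theorem qv_nonneg {v : V5} (h : v.ok = true) (ν η π : ℝ) : 0 ≤ qv ν η π v := by
  simp only [V5.ok, Bool.or_eq_true, Bool.and_eq_true, decide_eq_true_eq] at h
  rcases h with ⟨⟨ha, hb⟩, hdet⟩ | ⟨⟨⟨⟨ha, hb⟩, hc⟩, hd⟩, he⟩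
  · have ha' : (0 : ℝ) < v.a := Int.cast_pos.2 ha
    have hb' : (0 : ℝ) < v.b := Int.cast_pos.2 hb
    have hdet' : (v.c : ℝ) * v.c * v.b + v.d * v.d * v.a ≤ v.e * v.a * v.b := by exact_mod_cast hdet
    have key : (v.a : ℝ) * v.b * qv ν η π v = v.b * (v.a * ν + v.c * π) ^ 2
        + v.a * (v.b * η + v.d * π) ^ 2
        + (v.e * v.a * v.b - v.c * v.c * v.b - v.d * v.d * v.a) * π ^ 2 := by
      simp only [qv]; ring
    have : 0 ≤ (v.a : ℝ) * v.b * qv ν η π v := by
      rw [key]
      have : 0 ≤ ((v.e : ℝ) * v.a * v.b - v.c * v.c * v.b - v.d * v.d * v.a) * π ^ 2 :=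
        mul_nonneg (by linarith) (sq_nonneg π)
      positivity
    exact nonneg_of_mul_nonneg_right this (by positivity)
  · simp only [qv, ha, hb, hc, hd, Int.cast_zero]
    have : (0 : ℝ) ≤ v.e := by exact_mod_cast he
    nlinarith [mul_nonneg this (sq_nonneg π)]

/-- Polynomials in three variables. -/
abbrev P3 (α : Type) := List (List (List α))

variable {α : Type} [Mdl α] {f : α → ℝ}

/-- The reading by monomials. -/
def ev3 (f : α → ℝ) (w D l : ℝ) (p : P3 α) : ℝ := monE (monE (monE f l) D) w p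

/-- The reading on the unit box by binary forms. -/
def hv3 (f : α → ℝ) (n₀ n₁ n₂ : ℕ) (t₀ t₁ t₂ : ℝ) (p : P3 α) : ℝ :=
  homE (homE (homE f t₂ (1 - t₂) n₂) t₁ (1 - t₁) n₁) t₀ (1 - t₀) n₀ p

/-- The list padded by zeros to length `n + 1`. -/
def pad (n : ℕ) (p : List α) : List α := p ++ List.replicate (n + 1 - p.length) zero

theorem monE_replicate_zero (hf : IsLin f) (x : ℝ) :
    ∀ k, monE f x (List.replicate k (zero : α)) = 0
  | 0 => rfl
  | k + 1 => by simp [List.replicate_succ, monE, hf.zero, monE_replicate_zero hf x k]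

theorem monE_pad (hf : IsLin f) (x : ℝ) (n : ℕ) : ∀ p : List α, monE f x (pad n p) = monE f x p := by
  intro p
  have : ∀ (p : List α) k, monE f x (p ++ List.replicate k zero) = monE f x p := by
    intro p
    induction p with
    | nil => intro k; simpa [monE] using monE_replicate_zero hf x k
    | cons a p ih => intro k; simp [monE, ih k]
  exact this p _

theorem length_zadd : ∀ p q : List α, (zadd p q).length = max p.length q.length
  | [], q => by simp [zadd]
  | a :: p, [] => by simp [zadd]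
  | a :: p, b :: q => by simp only [zadd, List.length_cons, length_zadd p q]; omega

theorem length_affine (A H den : ℤ) : ∀ p : List α, (affine A H den p).length = p.length
  | [] => rfl
  | a :: p => by
      simp only [affine, length_zadd, List.length_cons, List.length_nil, List.length_map,
        length_affine A H den p]
      omega

/-- The substitution of one axis by an affine map of the unit interval, then binary-form
coefficients. -/
def conv (n : ℕ) (A H den : ℤ) (p : List α) : List α := toH n (affine A H den (pad n p))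

theorem homE_conv (hf : IsLin f) {n : ℕ} {A H den : ℤ} {x t : ℝ} {p : List α}
    (hden : den ≠ 0) (hx : (den : ℝ) * x = A + H * t) (hp : p.length ≤ n + 1) :
    homE f t (1 - t) n (conv n A H den p) = (den : ℝ) ^ n * monE f x p := by
  have hlen : (pad n p).length = n + 1 := by simp [pad]; omega
  rw [conv, homE_toH hf t n _ (by rw [length_affine, hlen])]
  have h := monE_affine hf A H den x t hx (pad n p)
  rw [hlen, monE_pad hf, pow_succ] at h
  have hd : (den : ℝ) ≠ 0 := Int.cast_ne_zero.2 hden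
  apply mul_right_cancel₀ hd
  linear_combination h

/-- A box with its three affine maps and degrees. -/
structure Root where
  n₀ : ℕ
  n₁ : ℕ
  n₂ : ℕ
  A : ℤ
  H : ℤ
  den : ℤ

/-- The degrees are large enough. -/
def fits (R : Root) (p : P3 α) : Bool :=
  decide (p.length ≤ R.n₀ + 1) &&
    p.all fun r => decide (r.length ≤ R.n₁ + 1) && r.all fun q => decide (q.length ≤ R.n₂ + 1)

/-- The coefficients on the root box `w ≤ 179/200`, `D ≤ 1`, `den l ∈ [A, A + H]`. -/
def conv3 (R : Root) (p : P3 α) : P3 α :=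
  conv R.n₀ 0 179 200 (p.map fun r => conv R.n₁ 0 1 1 (r.map (conv R.n₂ R.A R.H R.den)))

theorem hv3_conv3 (hf : IsLin f) {R : Root} {p : P3 α} (hden : R.den ≠ 0) (hfit : fits R p = true)
    {w D l t₀ t₁ t₂ : ℝ} (hw : 200 * w = 179 * t₀) (hD : D = t₁)
    (hl : (R.den : ℝ) * l = R.A + R.H * t₂) :
    hv3 f R.n₀ R.n₁ R.n₂ t₀ t₁ t₂ (conv3 R p) =
      (200 : ℝ) ^ R.n₀ * (R.den : ℝ) ^ R.n₂ * ev3 f w D l p := by
  simp only [fits, Bool.and_eq_true, decide_eq_true_eq, List.all_eq_true] at hfit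
  obtain ⟨h0, h12⟩ := hfit
  have hf2 := hf.hom t₂ (1 - t₂) R.n₂
  have hf1 := hf2.hom t₁ (1 - t₁) R.n₁
  rw [hv3, conv3, homE_conv hf1 (by norm_num) (x := w) (by push_cast; linarith)
    (by simpa using h0), monE_map]
  rw [monE_congr (g := monE (monE f l) D) (c := (R.den : ℝ) ^ R.n₂) w p, ev3]
  · push_cast; ring
  · intro r hr
    obtain ⟨h1, h2⟩ := h12 r hr
    rw [homE_conv hf2 (by norm_num) (x := D) (by push_cast; linarith) (by simpa using h1), monE_map,
      monE_congr (g := monE f l) (c := (R.den : ℝ) ^ R.n₂) D r]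
    · simp
    · intro q hq
      exact homE_conv hf hden hl (h2 q hq)

/-- Trees of halvings: `node₀`, `node₁`, `node₂` halve `w`, `D`, `l`; a `skip` lies outside the
domain. -/
inductive Tree
  | leaf
  | skip
  | node₀ (L R : Tree)
  | node₁ (L R : Tree)
  | node₂ (L R : Tree)

/-- The check; `i / 2 ^ a` is the left end in `w`, `j / 2 ^ b` the right end in `D`. -/
def run (R : Root) : Tree → ℕ → ℕ → ℕ → ℕ → P3 V5 → Bool
  | .leaf, _, _, _, _, X => X.all fun r => r.all fun q => q.all V5.ok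
  | .skip, i, a, j, b, _ => decide (4 * j * (200 * 2 ^ a) ^ 2 < 5 * (179 * i) ^ 2 * 2 ^ b)
  | .node₀ L M, i, a, j, b, X =>
      run R L (2 * i) (a + 1) j b (halfL R.n₀ X) &&
        run R M (2 * i + 1) (a + 1) j b (halfR R.n₀ X)
  | .node₁ L M, i, a, j, b, X =>
      run R L i a (2 * j - 1) (b + 1) (X.map (halfL R.n₁)) &&
        run R M i a (2 * j) (b + 1) (X.map (halfR R.n₁))
  | .node₂ L M, i, a, j, b, X =>
      run R L i a j b (X.map fun r => r.map (halfL R.n₂)) &&
        run R M i a j b (X.map fun r => r.map (halfR R.n₂))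

theorem homE_half_left (hf : IsLin f) (n : ℕ) (t : ℝ) (p : List α) :
    homE f (2 * t) (1 - 2 * t) n (halfL n p) = 2 ^ n * homE f t (1 - t) n p := by
  rw [homE_halfL hf, show 2 * t + 2 * (1 - 2 * t) = 2 * (1 - t) by ring, homE_scale]

theorem homE_half_right (hf : IsLin f) (n : ℕ) (t : ℝ) (p : List α) :
    homE f (2 * t - 1) (1 - (2 * t - 1)) n (halfR n p) = 2 ^ n * homE f t (1 - t) n p := by
  rw [homE_halfR hf, show 2 * (2 * t - 1) + (1 - (2 * t - 1)) = 2 * t by ring,
    show 1 - (2 * t - 1) = 2 * (1 - t) by ring, homE_scale]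

theorem run_sound {R : Root} (ν η π : ℝ) : ∀ (T : Tree) (i a j b : ℕ) (X : P3 V5),
    run R T i a j b X = true → 1 ≤ j → ∀ t₀ t₁ t₂ : ℝ,
    0 ≤ t₀ → t₀ ≤ 1 → 0 ≤ t₁ → t₁ ≤ 1 → 0 ≤ t₂ → t₂ ≤ 1 →
    5 * (179 * ((i : ℝ) + t₀) / (200 * 2 ^ a)) ^ 2 ≤ 4 * (((j : ℝ) - 1 + t₁) / 2 ^ b) →
    0 ≤ hv3 (qv ν η π) R.n₀ R.n₁ R.n₂ t₀ t₁ t₂ X := by
  intro T
  induction T with
  | leaf =>
    intro i a j b X h _ t₀ t₁ t₂ h0 h0' h1 h1' h2 h2' _
    simp only [run, List.all_eq_true] at h
    refine homE_nonneg h0 (by linarith) _ _ fun r hr => ?_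
    refine homE_nonneg h1 (by linarith) _ _ fun q hq => ?_
    exact homE_nonneg h2 (by linarith) _ _ fun v hv => qv_nonneg (h r hr q hq v hv) ν η π
  | skip =>
    intro i a j b X h hj t₀ t₁ t₂ h0 h0' h1 h1' h2 h2' hdom
    simp only [run, decide_eq_true_eq] at h
    have h' : (4 : ℝ) * j * (200 * 2 ^ a) ^ 2 < 5 * (179 * i) ^ 2 * 2 ^ b := by exact_mod_cast h
    exfalso
    have e : 5 * (179 * (i : ℝ)) ^ 2 / (200 * 2 ^ a) ^ 2 ≤ 4 * (j / 2 ^ b) := by
      refine le_trans ?_ (hdom.trans (by gcongr; linarith))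
      rw [div_pow, mul_div_assoc]
      gcongr; linarith
    rw [div_le_iff₀ (by positivity)] at e
    have e2 := mul_le_mul_of_nonneg_right e (show (0 : ℝ) ≤ 2 ^ b by positivity)
    have e3 : 4 * ((j : ℝ) / 2 ^ b) * (200 * 2 ^ a) ^ 2 * 2 ^ b = 4 * j * (200 * 2 ^ a) ^ 2 := by
      field_simp
    linarith
  | node₀ L M ihL ihM =>
    intro i a j b X h hj t₀ t₁ t₂ h0 h0' h1 h1' h2 h2' hdom
    simp only [run, Bool.and_eq_true] at h
    have hf := ((isLin_qv ν η π).hom t₂ (1 - t₂) R.n₂).hom t₁ (1 - t₁) R.n₁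
    rcases le_total t₀ (1 / 2) with ht | ht
    · have := ihL _ _ _ _ _ h.1 hj (2 * t₀) t₁ t₂ (by linarith) (by linarith) h1 h1' h2 h2'
        (le_of_eq_of_le (by push_cast; ring) hdom)
      rw [hv3, homE_half_left hf] at this
      exact nonneg_of_mul_nonneg_right this (by positivity)
    · have := ihM _ _ _ _ _ h.2 hj (2 * t₀ - 1) t₁ t₂ (by linarith) (by linarith) h1 h1' h2 h2'
        (le_of_eq_of_le (by push_cast; ring) hdom)
      rw [hv3, homE_half_right hf] at this
      exact nonneg_of_mul_nonneg_right this (by positivity)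
  | node₁ L M ihL ihM =>
    intro i a j b X h hj t₀ t₁ t₂ h0 h0' h1 h1' h2 h2' hdom
    simp only [run, Bool.and_eq_true] at h
    have hf := (isLin_qv ν η π).hom t₂ (1 - t₂) R.n₂
    rcases le_total t₁ (1 / 2) with ht | ht
    · have hc : ((2 * j - 1 : ℕ) : ℝ) = 2 * (j : ℝ) - 1 := by
        rw [Nat.cast_sub (by omega)]; push_cast; ring
      have := ihL _ _ (2 * j - 1) _ _ h.1 (by omega) t₀ (2 * t₁) t₂ h0 h0' (by linarith)
        (by linarith) h2 h2' (hdom.trans_eq (by rw [hc]; ring))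
      rw [hv3, homE_map, homE_congr (c := (2 : ℝ) ^ R.n₁) _ _ _ _
        (fun r _ => homE_half_left hf R.n₁ t₁ r)] at this
      exact nonneg_of_mul_nonneg_right this (by positivity)
    · have := ihM _ _ (2 * j) _ _ h.2 (by omega) t₀ (2 * t₁ - 1) t₂ h0 h0' (by linarith)
        (by linarith) h2 h2' (hdom.trans_eq (by push_cast; ring))
      rw [hv3, homE_map, homE_congr (c := (2 : ℝ) ^ R.n₁) _ _ _ _
        (fun r _ => homE_half_right hf R.n₁ t₁ r)] at this
      exact nonneg_of_mul_nonneg_right this (by positivity)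
  | node₂ L M ihL ihM =>
    intro i a j b X h hj t₀ t₁ t₂ h0 h0' h1 h1' h2 h2' hdom
    simp only [run, Bool.and_eq_true] at h
    rcases le_total t₂ (1 / 2) with ht | ht
    · have := ihL _ _ _ _ _ h.1 hj t₀ t₁ (2 * t₂) h0 h0' h1 h1' (by linarith) (by linarith) hdom
      rw [hv3, homE_map, homE_congr (c := (2 : ℝ) ^ R.n₂) _ _ _ _ (fun r _ => by
        rw [homE_map]
        exact homE_congr _ _ _ _ (fun q _ => homE_half_left (isLin_qv ν η π) R.n₂ t₂ q))] at this
      exact nonneg_of_mul_nonneg_right this (by positivity)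
    · have := ihM _ _ _ _ _ h.2 hj t₀ t₁ (2 * t₂ - 1) h0 h0' h1 h1' (by linarith) (by linarith) hdom
      rw [hv3, homE_map, homE_congr (c := (2 : ℝ) ^ R.n₂) _ _ _ _ (fun r _ => by
        rw [homE_map]
        exact homE_congr _ _ _ _ (fun q _ => homE_half_right (isLin_qv ν η π) R.n₂ t₂ q))] at this
      exact nonneg_of_mul_nonneg_right this (by positivity)

/-- Trailing entries without content removed. -/
def trim {α : Type} (z : α → Bool) : List α → List α
  | [] => []
  | a :: p =>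
    match trim z p with
    | [] => if z a then [] else [a]
    | b :: r => a :: b :: r

omit [Mdl α] in
theorem monE_trim {z : α → Bool} (hz : ∀ a, z a = true → f a = 0) (x : ℝ) :
    ∀ p : List α, monE f x (trim z p) = monE f x p
  | [] => rfl
  | a :: p => by
      have ih := monE_trim hz x p
      rw [trim]
      split
      · next h =>
        rw [h] at ih
        cases hza : z a
        · simp [monE, ← ih]
        · simp [monE, ← ih, hz a hza]
      · next b r h =>
        rw [h] at ih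
        simp only [monE] at ih ⊢
        rw [ih]

/-- The zero test. -/
def V5.isNil (v : V5) : Bool :=
  decide (v.a = 0) && decide (v.b = 0) && decide (v.c = 0) && decide (v.d = 0) && decide (v.e = 0)

/-- A form without trailing zeros. -/
def trim3 (p : P3 V5) : P3 V5 :=
  trim List.isEmpty (p.map fun r => trim List.isEmpty (r.map (trim V5.isNil)))

theorem ev3_trim3 (ν η π w D l : ℝ) (p : P3 V5) :
    ev3 (qv ν η π) w D l (trim3 p) = ev3 (qv ν η π) w D l p := by
  have h5 : ∀ v : V5, v.isNil = true → qv ν η π v = 0 := by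
    intro v h
    simp only [V5.isNil, Bool.and_eq_true, decide_eq_true_eq] at h
    simp [qv, h]
  have hnil : ∀ {β : Type} (g : β → ℝ) (y : ℝ) (q : List β), q.isEmpty = true → monE g y q = 0 := by
    intro β g y q h
    rw [List.isEmpty_iff.1 h]; rfl
  rw [ev3, trim3, monE_trim (hnil _ _), monE_map, ev3]
  refine (monE_congr (c := 1) w p fun r _ => ?_).trans (one_mul _)
  rw [monE_trim (hnil _ _), monE_map, one_mul]
  exact (monE_congr (c := 1) D r fun q _ => by rw [monE_trim h5, one_mul]).trans (one_mul _)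

/-- The full check of a polynomial form on a root box. -/
def checkBox (R : Root) (T : Tree) (p : P3 V5) : Bool :=
  decide (0 < R.den) && fits R (trim3 p) && run R T 0 0 1 0 (conv3 R (trim3 p))

theorem checkBox_sound {R : Root} {T : Tree} {p : P3 V5} (h : checkBox R T p = true)
    {w D l t : ℝ} (hw : 0 ≤ w) (hD : 0 ≤ D) (hD' : D ≤ 1) (hdom : 5 * w ^ 2 ≤ 4 * D)
    (ht : 0 ≤ t) (ht' : t ≤ 1) (hl : (R.den : ℝ) * l = R.A + R.H * t) (ν η π : ℝ) :
    0 ≤ ev3 (qv ν η π) w D l p := by
  simp only [checkBox, Bool.and_eq_true, decide_eq_true_eq] at h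
  obtain ⟨⟨hden, hfit⟩, hrun⟩ := h
  have hw' : 200 / 179 * w ≤ 1 := by nlinarith
  have h0 : 0 ≤ hv3 (qv ν η π) R.n₀ R.n₁ R.n₂ (200 / 179 * w) D t (conv3 R (trim3 p)) := by
    refine run_sound ν η π T 0 0 1 0 _ hrun le_rfl _ _ _ (by positivity) hw' hD hD' ht ht' ?_
    norm_num
    linarith
  rw [hv3_conv3 (isLin_qv ν η π) (by omega) hfit (w := w) (D := D) (l := l) (by ring) rfl hl] at h0
  have hd : (0 : ℝ) < R.den := Int.cast_pos.2 hden
  rw [ev3_trim3] at h0
  exact nonneg_of_mul_nonneg_right h0 (by positivity)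

end Vale.Agent.P098.Five
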