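import Vale.Agent.P098.Five.Q0LTree

/-!
# P098, five dimensions: the interior form, interval 0, lower bound on the invariant, part 2
-/

namespace Vale.Agent.P098.Five

set_option linter.style.longLine false

theorem run0Labaabb :
    run root0L sub0Labaabb 1 3 2 1
      ((halfR 4 ((halfL 4 ((halfL 4 (conv3 root0L (trim3 (quadForm T0L)))).map (halfR 5))).map fun r => r.map (halfL 5))).map fun r => r.map (halfR 5)) = true := by
  decide +kernel

theorem run0Labab :
    run root0L sub0Labab 0 2 2 1
      ((halfL 4 ((halfL 4 (conv3 root0L (trim3 (quadForm T0L)))).map (halfR 5))).map fun r => r.map (halfR 5)) = true := by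
  decide +kernel

theorem run0Labbaa :
    run root0L sub0Labbaa 2 3 3 2
      ((halfL 4 (halfR 4 ((halfL 4 (conv3 root0L (trim3 (quadForm T0L)))).map (halfR 5)))).map (halfL 5)) = true := by
  decide +kernel

theorem run0Labbab :
    run root0L sub0Labbab 2 3 4 2
      ((halfL 4 (halfR 4 ((halfL 4 (conv3 root0L (trim3 (quadForm T0L)))).map (halfR 5)))).map (halfR 5)) = true := by
  decide +kernel

theorem run0Labbb :
    run root0L sub0Labbb 3 3 2 1
      (halfR 4 (halfR 4 ((halfL 4 (conv3 root0L (trim3 (quadForm T0L)))).map (halfR 5)))) = true := by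
  decide +kernel

theorem run0Lb :
    run root0L sub0Lb 1 1 1 0
      (halfR 4 (conv3 root0L (trim3 (quadForm T0L)))) = true := by
  decide +kernel

end Vale.Agent.P098.Five
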