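import Vale.Agent.P098.Five.Q0UTree

/-!
# P098, five dimensions: the interior form, interval 0, upper bound on the invariant, part 2
-/

namespace Vale.Agent.P098.Five

set_option linter.style.longLine false

theorem run0Uaaaba :
    run root0U sub0Uaaaba 0 3 2 2
      (halfL 4 ((halfL 4 ((halfL 4 (conv3 root0U (trim3 (quadForm T0U)))).map (halfL 5))).map (halfR 5))) = true := by
  decide +kernel

theorem run0Uaaabb :
    run root0U sub0Uaaabb 1 3 2 2
      (halfR 4 ((halfL 4 ((halfL 4 (conv3 root0U (trim3 (quadForm T0U)))).map (halfL 5))).map (halfR 5))) = true := by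
  decide +kernel

theorem run0Uaaba :
    run root0U sub0Uaaba 1 2 1 2
      ((halfR 4 ((halfL 4 (conv3 root0U (trim3 (quadForm T0U)))).map (halfL 5))).map (halfL 5)) = true := by
  decide +kernel

theorem run0Uaabbaa :
    run root0U sub0Uaabbaa 2 3 2 2
      ((halfL 4 ((halfR 4 ((halfL 4 (conv3 root0U (trim3 (quadForm T0U)))).map (halfL 5))).map (halfR 5))).map fun r => r.map (halfL 5)) = true := by
  decide +kernel

theorem run0Uaabbaba :
    run root0U sub0Uaabbaba 4 4 2 2
      (halfL 4 ((halfL 4 ((halfR 4 ((halfL 4 (conv3 root0U (trim3 (quadForm T0U)))).map (halfL 5))).map (halfR 5))).map fun r => r.map (halfR 5))) = true := by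
  decide +kernel

theorem run0Uaabbabb :
    run root0U sub0Uaabbabb 5 4 2 2
      (halfR 4 ((halfL 4 ((halfR 4 ((halfL 4 (conv3 root0U (trim3 (quadForm T0U)))).map (halfL 5))).map (halfR 5))).map fun r => r.map (halfR 5))) = true := by
  decide +kernel

end Vale.Agent.P098.Five
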