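import Vale.Agent.P098.Five.Q0UTree

/-!
# P098, five dimensions: the interior form, interval 0, upper bound on the invariant, part 3
-/

namespace Vale.Agent.P098.Five

set_option linter.style.longLine false

theorem run0Uaabbb :
    run root0U sub0Uaabbb 3 3 2 2
      (halfR 4 ((halfR 4 ((halfL 4 (conv3 root0U (trim3 (quadForm T0U)))).map (halfL 5))).map (halfR 5))) = true := by
  decide +kernel

theorem run0Uabaaa :
    run root0U sub0Uabaaa 0 3 2 1
      (halfL 4 ((halfL 4 ((halfL 4 (conv3 root0U (trim3 (quadForm T0U)))).map (halfR 5))).map fun r => r.map (halfL 5))) = true := by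
  decide +kernel

theorem run0Uabaab :
    run root0U sub0Uabaab 1 3 2 1
      (halfR 4 ((halfL 4 ((halfL 4 (conv3 root0U (trim3 (quadForm T0U)))).map (halfR 5))).map fun r => r.map (halfL 5))) = true := by
  decide +kernel

theorem run0Uabab :
    run root0U sub0Uabab 0 2 2 1
      ((halfL 4 ((halfL 4 (conv3 root0U (trim3 (quadForm T0U)))).map (halfR 5))).map fun r => r.map (halfR 5)) = true := by
  decide +kernel

theorem run0Uabbaa :
    run root0U sub0Uabbaa 2 3 3 2
      ((halfL 4 (halfR 4 ((halfL 4 (conv3 root0U (trim3 (quadForm T0U)))).map (halfR 5)))).map (halfL 5)) = true := by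
  decide +kernel

theorem run0Uabbab :
    run root0U sub0Uabbab 2 3 4 2
      ((halfL 4 (halfR 4 ((halfL 4 (conv3 root0U (trim3 (quadForm T0U)))).map (halfR 5)))).map (halfR 5)) = true := by
  decide +kernel

theorem run0Uabbbaa :
    run root0U sub0Uabbbaa 3 3 3 2
      (((halfR 4 (halfR 4 ((halfL 4 (conv3 root0U (trim3 (quadForm T0U)))).map (halfR 5)))).map (halfL 5)).map fun r => r.map (halfL 5)) = true := by
  decide +kernel

end Vale.Agent.P098.Five
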