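import Vale.Agent.P098.Five.Q0UTree

/-!
# P098, five dimensions: the interior form, interval 0, upper bound on the invariant, part 4
-/

namespace Vale.Agent.P098.Five

set_option linter.style.longLine false

theorem run0Uabbbaba :
    run root0U sub0Uabbbaba 6 4 3 2
      (halfL 4 (((halfR 4 (halfR 4 ((halfL 4 (conv3 root0U (trim3 (quadForm T0U)))).map (halfR 5)))).map (halfL 5)).map fun r => r.map (halfR 5))) = true := by
  decide +kernel

theorem run0Uabbbabb :
    run root0U sub0Uabbbabb 7 4 3 2
      (halfR 4 (((halfR 4 (halfR 4 ((halfL 4 (conv3 root0U (trim3 (quadForm T0U)))).map (halfR 5)))).map (halfL 5)).map fun r => r.map (halfR 5))) = true := by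
  decide +kernel

theorem run0Uabbbb :
    run root0U sub0Uabbbb 3 3 4 2
      ((halfR 4 (halfR 4 ((halfL 4 (conv3 root0U (trim3 (quadForm T0U)))).map (halfR 5)))).map (halfR 5)) = true := by
  decide +kernel

theorem run0Ub :
    run root0U sub0Ub 1 1 1 0
      (halfR 4 (conv3 root0U (trim3 (quadForm T0U)))) = true := by
  decide +kernel

end Vale.Agent.P098.Five
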