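import Vale.Agent.P098.Five.Q0UPart1
import Vale.Agent.P098.Five.Q0UPart2
import Vale.Agent.P098.Five.Q0UPart3
import Vale.Agent.P098.Five.Q0UPart4

/-!
# P098, five dimensions: the interior form, interval 0, upper bound on the invariant
-/

namespace Vale.Agent.P098.Five

set_option linter.unusedSimpArgs false in
theorem checkQ0U : checkBox root0U treeQ0U (quadForm T0U) = true := by
  have hden : decide (0 < root0U.den) = true := by decide +kernel
  have hfit : fits root0U (trim3 (quadForm T0U)) = true := by decide +kernel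
  have h0 : root0U.n₀ = 4 := rfl
  have h1 : root0U.n₁ = 5 := rfl
  have h2 : root0U.n₂ = 5 := rfl
  simp only [checkBox, hden, hfit, treeQ0U, run, h0, h1, h2, Nat.mul_zero, Nat.mul_one, Nat.zero_add,
    Nat.reduceMul, Nat.reduceAdd, Nat.reduceSub, Bool.and_eq_true, run0Uaaaaaaa, run0Uaaaaaab, run0Uaaaaab, run0Uaaaaba, run0Uaaaabba, run0Uaaaabbb, run0Uaaaba, run0Uaaabb, run0Uaaba, run0Uaabbaa, run0Uaabbaba, run0Uaabbabb, run0Uaabbb, run0Uabaaa, run0Uabaab, run0Uabab, run0Uabbaa, run0Uabbab, run0Uabbbaa, run0Uabbbaba, run0Uabbbabb, run0Uabbbb, run0Ub, and_self]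

end Vale.Agent.P098.Five
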