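import Vale.Agent.P098.Five.Q1LPart1

/-!
# P098, five dimensions: the interior form, interval 1, lower bound on the invariant
-/

namespace Vale.Agent.P098.Five

set_option linter.unusedSimpArgs false in
theorem checkQ1L : checkBox root1L treeQ1L (quadForm T1L) = true := by
  have hden : decide (0 < root1L.den) = true := by decide +kernel
  have hfit : fits root1L (trim3 (quadForm T1L)) = true := by decide +kernel
  have h0 : root1L.n₀ = 4 := rfl
  have h1 : root1L.n₁ = 5 := rfl
  have h2 : root1L.n₂ = 5 := rfl
  simp only [checkBox, hden, hfit, treeQ1L, run, h0, h1, h2, Nat.mul_zero, Nat.mul_one, Nat.zero_add,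
    Nat.reduceMul, Nat.reduceAdd, Nat.reduceSub, Bool.and_eq_true, run1Laa, run1Lab, run1Lb, and_self]

end Vale.Agent.P098.Five
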