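import Vale.Agent.P098.Five.Q1UTree

/-!
# P098, five dimensions: the interior form, interval 1, upper bound on the invariant, part 2
-/

namespace Vale.Agent.P098.Five

set_option linter.style.longLine false

theorem run1Uabba :
    run root1U sub1Uabba 2 3 2 1
      (halfL 4 ((halfR 4 (halfL 4 (conv3 root1U (trim3 (quadForm T1U))))).map (halfR 5))) = true := by
  decide +kernel

theorem run1Uabbba :
    run root1U sub1Uabbba 3 3 2 1
      ((halfR 4 ((halfR 4 (halfL 4 (conv3 root1U (trim3 (quadForm T1U))))).map (halfR 5))).map fun r => r.map (halfL 5)) = true := by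
  decide +kernel

theorem run1Uabbbb :
    run root1U sub1Uabbbb 3 3 2 1
      ((halfR 4 ((halfR 4 (halfL 4 (conv3 root1U (trim3 (quadForm T1U))))).map (halfR 5))).map fun r => r.map (halfR 5)) = true := by
  decide +kernel

theorem run1Uba :
    run root1U sub1Uba 1 1 1 1
      ((halfR 4 (conv3 root1U (trim3 (quadForm T1U)))).map (halfL 5)) = true := by
  decide +kernel

theorem run1Ubb :
    run root1U sub1Ubb 1 1 2 1
      ((halfR 4 (conv3 root1U (trim3 (quadForm T1U)))).map (halfR 5)) = true := by
  decide +kernel

end Vale.Agent.P098.Five
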