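import Vale.Agent.P098.Five.Q4LTree

/-!
# P098, five dimensions: the interior form, interval 4, lower bound on the invariant, part 2
-/

namespace Vale.Agent.P098.Five

set_option linter.style.longLine false

theorem run4Lababb :
    run root4L sub4Lababb 1 3 2 1
      (halfR 4 ((halfL 4 ((halfL 4 (conv3 root4L (trim3 (quadForm T4L)))).map (halfR 5))).map fun r => r.map (halfR 5))) = true := by
  decide +kernel

theorem run4Labb :
    run root4L sub4Labb 1 2 2 1
      (halfR 4 ((halfL 4 (conv3 root4L (trim3 (quadForm T4L)))).map (halfR 5))) = true := by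
  decide +kernel

theorem run4Lba :
    run root4L sub4Lba 1 1 1 1
      ((halfR 4 (conv3 root4L (trim3 (quadForm T4L)))).map (halfL 5)) = true := by
  decide +kernel

theorem run4Lbb :
    run root4L sub4Lbb 1 1 2 1
      ((halfR 4 (conv3 root4L (trim3 (quadForm T4L)))).map (halfR 5)) = true := by
  decide +kernel

end Vale.Agent.P098.Five
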