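import Vale.Agent.P098.Five.Q4LPart1
import Vale.Agent.P098.Five.Q4LPart2

/-!
# P098, five dimensions: the interior form, interval 4, lower bound on the invariant
-/

namespace Vale.Agent.P098.Five

set_option linter.unusedSimpArgs false in
theorem checkQ4L : checkBox root4L treeQ4L (quadForm T4L) = true := by
  have hden : decide (0 < root4L.den) = true := by decide +kernel
  have hfit : fits root4L (trim3 (quadForm T4L)) = true := by decide +kernel
  have h0 : root4L.n₀ = 4 := rfl
  have h1 : root4L.n₁ = 5 := rfl
  have h2 : root4L.n₂ = 5 := rfl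
  simp only [checkBox, hden, hfit, treeQ4L, run, h0, h1, h2, Nat.mul_zero, Nat.mul_one, Nat.zero_add,
    Nat.reduceMul, Nat.reduceAdd, Nat.reduceSub, Bool.and_eq_true, run4Laaa, run4Laaba, run4Laabb, run4Labaa, run4Lababa, run4Lababb, run4Labb, run4Lba, run4Lbb, and_self]

end Vale.Agent.P098.Five
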