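import Vale.Agent.P098.Five.Q4UTree

/-!
# P098, five dimensions: the interior form, interval 4, upper bound on the invariant, part 2
-/

namespace Vale.Agent.P098.Five

set_option linter.style.longLine false

theorem run4Uabab :
    run root4U sub4Uabab 1 3 2 1
      (halfR 4 (halfL 4 ((halfL 4 (conv3 root4U (trim3 (quadForm T4U)))).map (halfR 5)))) = true := by
  decide +kernel

theorem run4Uabb :
    run root4U sub4Uabb 1 2 2 1
      (halfR 4 ((halfL 4 (conv3 root4U (trim3 (quadForm T4U)))).map (halfR 5))) = true := by
  decide +kernel

theorem run4Uba :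
    run root4U sub4Uba 1 1 1 1
      ((halfR 4 (conv3 root4U (trim3 (quadForm T4U)))).map (halfL 5)) = true := by
  decide +kernel

theorem run4Ubb :
    run root4U sub4Ubb 1 1 2 1
      ((halfR 4 (conv3 root4U (trim3 (quadForm T4U)))).map (halfR 5)) = true := by
  decide +kernel

end Vale.Agent.P098.Five
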