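import Vale.Agent.P098.Five.Q4UPart1
import Vale.Agent.P098.Five.Q4UPart2

/-!
# P098, five dimensions: the interior form, interval 4, upper bound on the invariant
-/

namespace Vale.Agent.P098.Five

set_option linter.unusedSimpArgs false in
theorem checkQ4U : checkBox root4U treeQ4U (quadForm T4U) = true := by
  have hden : decide (0 < root4U.den) = true := by decide +kernel
  have hfit : fits root4U (trim3 (quadForm T4U)) = true := by decide +kernel
  have h0 : root4U.n₀ = 4 := rfl
  have h1 : root4U.n₁ = 5 := rfl
  have h2 : root4U.n₂ = 5 := rfl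
  simp only [checkBox, hden, hfit, treeQ4U, run, h0, h1, h2, Nat.mul_zero, Nat.mul_one, Nat.zero_add,
    Nat.reduceMul, Nat.reduceAdd, Nat.reduceSub, Bool.and_eq_true, run4Uaaa, run4Uaaba, run4Uaabb, run4Uabaaa, run4Uabaab, run4Uabab, run4Uabb, run4Uba, run4Ubb, and_self]

end Vale.Agent.P098.Five
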