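import Vale.Agent.P098.Div.Spec

/-!
# P098, five dimensions: four eigenvalues with one of them marked

For `l` with sum zero and squares summing to one, `L = l k` confines the cubic invariant `τ` to the
interval `6 (τ - c) ^ 2 ≤ (1 - 4 L ^ 2 / 3) ^ 3`, `c = 20 L ^ 3 / 9 - L`; on it the quadratic form
`normK` is bounded below through `∑ l x` and `∑ l ^ 2 x`.
-/

namespace Vale.Agent.P098.Five

open Vale.Agent.P098.Div

/-- The centre of the range of the cubic invariant. -/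
noncomputable def centre (L : ℝ) : ℝ := 20 / 9 * L ^ 3 - L

/-- The facts on the pair `(l k, τ)`. -/
structure Range (L τ : ℝ) : Prop where
  cap : 4 * L ^ 2 ≤ 3
  bound : 6 * (τ - centre L) ^ 2 ≤ (1 - 4 * L ^ 2 / 3) ^ 3

theorem range_of_three {L p q r τ : ℝ} (h1 : L + p + q + r = 0)
    (h2 : L ^ 2 + p ^ 2 + q ^ 2 + r ^ 2 = 1) (h3 : L ^ 3 + p ^ 3 + q ^ 3 + r ^ 3 = τ) : Range L τ := by
  obtain ⟨a, rfl⟩ : ∃ a, p = a - L / 3 := ⟨p + L / 3, by ring⟩
  obtain ⟨b, rfl⟩ : ∃ b, q = b - L / 3 := ⟨q + L / 3, by ring⟩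
  have hr : r = -a - b - L / 3 := by linarith
  subst hr
  have e2 : 1 - 4 * L ^ 2 / 3 = 2 * (a ^ 2 + a * b + b ^ 2) := by linear_combination -h2
  have e3 : τ - centre L = -3 * a * b * (a + b) := by
    rw [centre]; linear_combination -h3 - L * h2
  refine ⟨?_, ?_⟩
  · nlinarith [sq_nonneg a, sq_nonneg b, sq_nonneg (a + b)]
  · rw [e3, e2]
    linear_combination (2 : ℝ) * sq_nonneg ((a - b) * (2 * a + b) * (a + 2 * b))

/-- The bound on the second diagonal entry of the Gram matrix, on the range. -/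
theorem gram_bound {L τ : ℝ} (h : Range L τ) :
    (3 + 4 * L ^ 2) * (-4 * L * τ + 16 * L ^ 4 - 8 * L ^ 2) ≤ (3 * τ - L + 4 * L ^ 3) ^ 2 := by
  obtain ⟨hz, hd⟩ := h
  obtain ⟨d, rfl⟩ : ∃ d, τ = centre L + d := ⟨τ - centre L, by ring⟩
  simp only [add_sub_cancel_left] at hd
  simp only [centre]
  have key : ∀ K : ℝ, 0 < K → (12 - 80 * L ^ 2) * L * d
      ≤ K * d ^ 2 + L ^ 2 * (12 - 80 * L ^ 2) ^ 2 / (4 * K) := by
    intro K hK
    have e : K * d ^ 2 + L ^ 2 * (12 - 80 * L ^ 2) ^ 2 / (4 * K) - (12 - 80 * L ^ 2) * L * d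
        = (2 * K * d - (12 - 80 * L ^ 2) * L) ^ 2 / (4 * K) := by
      field_simp; ring
    have := div_nonneg (sq_nonneg (2 * K * d - (12 - 80 * L ^ 2) * L))
      (by linarith : (0 : ℝ) ≤ 4 * K)
    linarith
  suffices hs : ∀ z, z = L ^ 2 → (12 - 80 * z) * L * d
      + 4 * z / 9 * (-192 * z ^ 2 + 204 * z - 63) ≤ 9 * d ^ 2 by
    linear_combination hs _ rfl
  intro z hz'
  simp only [← hz'] at key hd hz ⊢
  have hz0 : 0 ≤ z := hz' ▸ sq_nonneg L
  rcases le_total z (167 / 500) with h0 | h0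
  · have hk := key 9 (by norm_num)
    have h1 : (12 - 80 * z) ^ 2 / 36 + 4 / 9 * (-192 * z ^ 2 + 204 * z - 63) ≤ 0 := by nlinarith
    nlinarith [mul_nonneg hz0 (neg_nonneg.2 h1)]
  · rcases le_total z (1 / 2) with h1 | h1
    · have hk := key 64 (by norm_num)
      nlinarith [mul_nonneg (sub_nonneg.2 h0) (sub_nonneg.2 h1),
        mul_nonneg (mul_nonneg (sub_nonneg.2 h0) (sub_nonneg.2 h1)) hz0]
    · have hk := key 256 (by norm_num)
      have h2 : z ≤ 3 / 4 := by linarith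
      nlinarith [mul_nonneg (sub_nonneg.2 h1) (sub_nonneg.2 h2),
        mul_nonneg (mul_nonneg (sub_nonneg.2 h1) (sub_nonneg.2 h2)) hz0]

/-- The ratio of the two Gram entries. -/
noncomputable def kap (L τ : ℝ) : ℝ := (3 * τ - L + 4 * L ^ 3) / (3 + 4 * L ^ 2)

theorem normK_four {L p q r τ x y z v : ℝ} (h1 : L + p + q + r = 0)
    (h2 : L ^ 2 + p ^ 2 + q ^ 2 + r ^ 2 = 1) (h3 : L ^ 3 + p ^ 3 + q ^ 3 + r ^ 3 = τ)
    (hx : x + y + z + v = 0) :
    9 * (L * x + p * y + q * z + r * v) ^ 2 / (3 + 4 * L ^ 2)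
      + 9 * ((L ^ 2 * x + p ^ 2 * y + q ^ 2 * z + r ^ 2 * v)
        - kap L τ * (L * x + p * y + q * z + r * v)) ^ 2
      ≤ x ^ 2 + 3 * y ^ 2 + 3 * z ^ 2 + 3 * v ^ 2 := by
  have hG : (0 : ℝ) < 3 + 4 * L ^ 2 := by positivity
  obtain ⟨n, hn⟩ : ∃ n, L * x + p * y + q * z + r * v = n := ⟨_, rfl⟩
  obtain ⟨k, hk⟩ : ∃ k, kap L τ = k := ⟨_, rfl⟩
  have hkG : k * (3 + 4 * L ^ 2) = 3 * τ - L + 4 * L ^ 3 := by
    rw [← hk, kap, div_mul_cancel₀ _ hG.ne']
  obtain ⟨α, hα⟩ : ∃ α, 9 * n / (3 + 4 * L ^ 2) = α := ⟨_, rfl⟩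
  have hαG : α * (3 + 4 * L ^ 2) = 9 * n := by rw [← hα, div_mul_cancel₀ _ hG.ne']
  obtain ⟨e, he⟩ : ∃ e, (L ^ 2 * x + p ^ 2 * y + q ^ 2 * z + r ^ 2 * v) - k * n = e := ⟨_, rfl⟩
  rw [hn, hk, he, show 9 * n ^ 2 / (3 + 4 * L ^ 2) = α * n by rw [← hα]; ring]
  set β := 9 * e with hβ
  set A := -α * (L / 3) - β * ((1 + 2 * L ^ 2) / 6 - k * L / 3) with hA
  set B := α - β * k with hB
  have hlow : 2 * ((A + B * L + β * L ^ 2) * x + (A + B * p + β * p ^ 2) * y
        + (A + B * q + β * q ^ 2) * z + (A + B * r + β * r ^ 2) * v)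
      - ((A + B * L + β * L ^ 2) ^ 2 + ((A + B * p + β * p ^ 2) ^ 2 + (A + B * q + β * q ^ 2) ^ 2
          + (A + B * r + β * r ^ 2) ^ 2) / 3)
      ≤ x ^ 2 + 3 * y ^ 2 + 3 * z ^ 2 + 3 * v ^ 2 := by
    linear_combination sq_nonneg (x - (A + B * L + β * L ^ 2))
      + (1 / 3) * sq_nonneg (3 * y - (A + B * p + β * p ^ 2))
      + (1 / 3) * sq_nonneg (3 * z - (A + B * q + β * q ^ 2))
      + (1 / 3) * sq_nonneg (3 * v - (A + B * r + β * r ^ 2))
  have hlin : (A + B * L + β * L ^ 2) * x + (A + B * p + β * p ^ 2) * y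
      + (A + B * q + β * q ^ 2) * z + (A + B * r + β * r ^ 2) * v = α * n + β * e := by
    linear_combination A * hx + B * hn + β * he + (-n) * hB
  have h4 : L ^ 4 + p ^ 4 + q ^ 4 + r ^ 4 = 1 / 2 - 4 * L * τ / 3 + 4 * L ^ 4 - 2 * L ^ 2 := by
    obtain rfl : r = -L - p - q := by linarith
    subst h3
    linear_combination
      ((p ^ 2 + q ^ 2 + p * q + p * L + q * L + L ^ 2) + 1 / 2 - 2 * L ^ 2) * h2
  have hquad : (A + B * L + β * L ^ 2) ^ 2 + ((A + B * p + β * p ^ 2) ^ 2 + (A + B * q + β * q ^ 2) ^ 2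
        + (A + B * r + β * r ^ 2) ^ 2) / 3
      = 2 * A ^ 2 + 4 * A * B * L / 3 + (2 * A * β + B ^ 2) * (1 + 2 * L ^ 2) / 3
        + 2 * B * β * (τ + 2 * L ^ 3) / 3
        + β ^ 2 * ((1 / 2 - 4 * L * τ / 3 + 4 * L ^ 4 - 2 * L ^ 2) + 2 * L ^ 4) / 3 := by
    linear_combination (2 * A * B / 3) * h1 + ((2 * A * β + B ^ 2) / 3) * h2
      + (2 * B * β / 3) * h3 + β ^ 2 / 3 * h4
  have hquad2 : 2 * A ^ 2 + 4 * A * B * L / 3 + (2 * A * β + B ^ 2) * (1 + 2 * L ^ 2) / 3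
        + 2 * B * β * (τ + 2 * L ^ 3) / 3
        + β ^ 2 * ((1 / 2 - 4 * L * τ / 3 + 4 * L ^ 4 - 2 * L ^ 2) + 2 * L ^ 4) / 3
      = α * n + β ^ 2 * ((1 - 4 * L * τ + 16 * L ^ 4 - 8 * L ^ 2) / 9
        - k * (3 * τ - L + 4 * L ^ 3) / 9) := by
    rw [hA, hB]
    linear_combination (β ^ 2 * k / 9 - 2 * α * β / 9) * hkG + (α / 9) * hαG
  have hg := gram_bound (range_of_three h1 h2 h3)
  have hq : (1 - 4 * L * τ + 16 * L ^ 4 - 8 * L ^ 2) - k * (3 * τ - L + 4 * L ^ 3) ≤ 1 := by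
    refine le_of_mul_le_mul_right ?_ hG
    linear_combination hg + (-(3 * τ - L + 4 * L ^ 3)) * hkG
  have h10 := mul_le_mul_of_nonneg_left hq (sq_nonneg β)
  rw [hlin, hquad, hquad2] at hlow
  rw [hβ] at hlow h10
  linear_combination hlow + (1 / 9) * h10

theorem range_of_spectrum {l : Fin 4 → ℝ} (h : Spectrum l) (k : Fin 4) :
    Range (l k) (cubic l) := by
  have h1 := h.sum; have h2 := h.sq
  simp only [Fin.sum_univ_four] at h1 h2
  have h3 : l 0 ^ 3 + l 1 ^ 3 + l 2 ^ 3 + l 3 ^ 3 = cubic l := by rw [cubic, Fin.sum_univ_four]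
  fin_cases k <;> simp only [Fin.reduceFinMk]
  · exact range_of_three (p := l 1) (q := l 2) (r := l 3) h1 h2 h3
  · exact range_of_three (p := l 0) (q := l 2) (r := l 3) (by linear_combination h1)
      (by linear_combination h2) (by linear_combination h3)
  · exact range_of_three (p := l 0) (q := l 1) (r := l 3) (by linear_combination h1)
      (by linear_combination h2) (by linear_combination h3)
  · exact range_of_three (p := l 0) (q := l 1) (r := l 2) (by linear_combination h1)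
      (by linear_combination h2) (by linear_combination h3)

theorem normK_lower {l : Fin 4 → ℝ} (h : Spectrum l) (k : Fin 4) {x : Fin 4 → ℝ}
    (hx : ∑ i, x i = 0) :
    9 * nu l x ^ 2 / (3 + 4 * l k ^ 2) + 9 * (mu l x - kap (l k) (cubic l) * nu l x) ^ 2
      ≤ normK k x := by
  have h1 := h.sum; have h2 := h.sq
  simp only [Fin.sum_univ_four] at h1 h2 hx
  have h3 : l 0 ^ 3 + l 1 ^ 3 + l 2 ^ 3 + l 3 ^ 3 = cubic l := by rw [cubic, Fin.sum_univ_four]
  fin_cases k <;> simp only [Fin.reduceFinMk]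
  · simpa [nu, mu, normK, Fin.sum_univ_four] using normK_four (L := l 0) h1 h2 h3 hx
  · convert normK_four (L := l 1) (p := l 0) (q := l 2) (r := l 3) (τ := cubic l) (x := x 1)
      (y := x 0) (z := x 2) (v := x 3) (by linear_combination h1) (by linear_combination h2)
      (by linear_combination h3) (by linear_combination hx) using 1 <;>
      simp [nu, mu, normK, Fin.sum_univ_four] <;> ring
  · convert normK_four (L := l 2) (p := l 0) (q := l 1) (r := l 3) (τ := cubic l) (x := x 2)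
      (y := x 0) (z := x 1) (v := x 3) (by linear_combination h1) (by linear_combination h2)
      (by linear_combination h3) (by linear_combination hx) using 1 <;>
      simp [nu, mu, normK, Fin.sum_univ_four] <;> ring
  · convert normK_four (L := l 3) (p := l 0) (q := l 1) (r := l 2) (τ := cubic l) (x := x 3)
      (y := x 0) (z := x 1) (v := x 2) (by linear_combination h1) (by linear_combination h2)
      (by linear_combination h3) (by linear_combination hx) using 1 <;>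
      simp [nu, mu, normK, Fin.sum_univ_four] <;> ring

end Vale.Agent.P098.Five
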