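import Vale.Agent.P098.Five.Fields
import Vale.Agent.P098.Five.Bounds
import Vale.Agent.P098.Five.Spectrum

/-!
# P098, five dimensions: the interior form against the checked polynomial forms

After the lower bound on `normK` the interior expression is affine in the cubic invariant, so it is
nonnegative between two values of the invariant as soon as the checked forms are.
-/

namespace Vale.Agent.P098.Five

open Vale.Agent.P098.Div Vale.Agent.P098.Cone

noncomputable section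

variable (w D L : ℝ)

theorem ev_T (qT : List ℤ) (w' D' : ℝ) : ev w' D' L [[qT]] = ev 0 0 L [[qT]] := by
  simp [ev, ev3, monE]

theorem ev_dW_affine (p q : P3 ℤ) (qT : List ℤ) :
    ev w D L (dW (pa (pc 1024 p) (pm [[qT]] q))) =
      1024 * ev w D L (dW p) + ev 0 0 L [[qT]] * ev w D L (dW q) := by
  refine (hasDerivAt_ev_w w D L _).unique ?_
  simp only [ev_pa, ev_pc, ev_pm, ev_T L qT]
  push_cast
  exact ((hasDerivAt_ev_w _ _ _ _).const_mul _).fun_add ((hasDerivAt_ev_w _ _ _ _).const_mul _)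

theorem ev_dD_affine (p q : P3 ℤ) (qT : List ℤ) :
    ev w D L (dD (pa (pc 1024 p) (pm [[qT]] q))) =
      1024 * ev w D L (dD p) + ev 0 0 L [[qT]] * ev w D L (dD q) := by
  refine (hasDerivAt_ev_D w D L _).unique ?_
  simp only [ev_pa, ev_pc, ev_pm, ev_T L qT]
  push_cast
  exact ((hasDerivAt_ev_D _ _ _ _).const_mul _).fun_add ((hasDerivAt_ev_D _ _ _ _).const_mul _)

/-- The value of a coefficient list, over `4096`. -/
abbrev e0 (p : P3 ℤ) : ℝ := ev w D L p / 4096

/-- `F + w F_w`. -/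
def lead : ℝ := e0 w D L FP + w * e0 w D L (dW FP)

/-- The interior expression apart from `lead * normK`, with `e = μ - τ n`. -/
def rest (τ n e π : ℝ) : ℝ :=
  let F := e0 w D L FP; let Fw := e0 w D L (dW FP); let FD := e0 w D L (dD FP)
  let g := e0 w D L gP; let gw := e0 w D L (dW gP); let gD := e0 w D L (dD gP)
  let b0 := π + w * n; let b1 := -2 * L * π
  F * -n ^ 2 + 2 * n * (Fw * b0 + FD * b1) + Fw * (-(w * n ^ 2) + 2 * π * n)
    + (e0 w D L (dW (dW FP)) * b0 ^ 2 + 2 * e0 w D L (dD (dW FP)) * b0 * b1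
      + e0 w D L (dD (dD FP)) * b1 ^ 2)
    + (e0 w D L alP + τ * e0 w D L al1P) * (2 * n * π)
    + ((e0 w D L (dW alP) + τ * e0 w D L (dW al1P)) * b0
      + (e0 w D L (dD alP) + τ * e0 w D L (dD al1P)) * b1 + e0 w D L al1P * (3 * e)) * π
    + (e0 w D L beP + τ * e0 w D L be1P) * (n * L * π)
    + ((e0 w D L (dW beP) + τ * e0 w D L (dW be1P)) * b0
      + (e0 w D L (dD beP) + τ * e0 w D L (dD be1P)) * b1 + e0 w D L be1P * (3 * e)) * (L * π)
    + e0 w D L gaP * (n * π) + (e0 w D L (dW gaP) * b0 + e0 w D L (dD gaP) * b1) * (L ^ 2 * π)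
    - g ^ 2 * n ^ 2 / 4 - g * n * (gw * b0 + gD * b1) - (gw * b0 + gD * b1) ^ 2

/-- The part free of `(x, π)`. -/
def base (τ : ℝ) : ℝ :=
  -2 * e0 w D L (dD FP) + (e0 w D L beP + τ * e0 w D L be1P) + τ * e0 w D L gaP

/-- The lower bound of the interior form, in the variables `ν`, `η`. -/
def phi (ν η π τ : ℝ) : ℝ :=
  (1 - D) * (lead w D L * ((3 + 4 * L ^ 2) / 9 * ν ^ 2 + η ^ 2)
    + rest w D L τ ((3 + 4 * L ^ 2) / 9 * ν) (η / 3 + (-L + 4 * L ^ 3 - 4 * L ^ 2 * τ) / 9 * ν) π)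
    + base w D L τ * π ^ 2

theorem ev3_quad_eq (ν η π : ℝ) (qT : List ℤ) :
    ev3 (qv ν η π) w D L (quadForm [[qT]]) =
      324 * 4096 ^ 2 * 1024 * phi w D L ν η π (ev 0 0 L [[qT]] / 1024) := by
  rw [ev3_quadForm]
  simp only [m11, m22, m13, m23, m33, GP, aVP, gsP, gdP, b0P, c0P, SP, AP, UP]
  simp only [ev_pa, ev_pc, ev_pm, ev_cst, ev_wP, ev_DP, ev_lP]
  simp only [alT, beT, ev_dW_affine, ev_dD_affine]
  simp only [ev_pa, ev_pc, ev_pm, ev_T L qT w D, phi, rest, base, lead, e0]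
  push_cast
  ring

theorem phi_between {ν η π τ a b : ℝ} (ha : a ≤ τ) (hb : τ ≤ b) (hA : 0 ≤ phi w D L ν η π a)
    (hB : 0 ≤ phi w D L ν η π b) : 0 ≤ phi w D L ν η π τ := by
  have key : ∀ t, phi w D L ν η π t =
      phi w D L ν η π 0 + t * (phi w D L ν η π 1 - phi w D L ν η π 0) := by
    intro t; simp only [phi, rest, base]; ring
  rw [key] at hA hB ⊢
  rcases le_total 0 (phi w D L ν η π 1 - phi w D L ν η π 0) with hs | hs
  · linarith [mul_le_mul_of_nonneg_right ha hs]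
  · linarith [mul_le_mul_of_nonpos_right hb hs]

theorem lead_nonneg_of (h : ∀ ν η π, 0 ≤ ev3 (qv ν η π) w D L (scalarForm AP)) :
    0 ≤ lead w D L := by
  have := h 0 0 1
  rw [ev3_scalarForm, AP, ev_pa, ev_pm, ev_wP] at this
  rw [lead]
  simp only [e0]
  linarith

variable {w D L}

theorem quad_eq {l : Fin 4 → ℝ} (k : Fin 4) (x : Fin 4 → ℝ) (π : ℝ) (hk : l k = L)
    (hsym : ev w D L (dW (dD FP)) = ev w D L (dD (dW FP))) :
    quad cert l w D k x π = lead w D L * normK k x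
      + rest w D L (cubic l) (nu l x) (mu l x - cubic l * nu l x) π := by
  have f0 : flat FP = true := by decide +kernel
  have f1 : flat (dW FP) = true := by decide +kernel
  have f2 : flat (dD FP) = true := by decide +kernel
  have g0 : flat gP = true := by decide +kernel
  have a0 : flat alP = true := by decide +kernel
  have a1 : flat al1P = true := by decide +kernel
  have b0 : flat beP = true := by decide +kernel
  have b1 : flat be1P = true := by decide +kernel
  have c0 : flat gaP = true := by decide +kernel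
  subst hk
  simp only [quad, cert, along, along₂, hess, Fin.sum_univ_three]
  simp only [pd_fn0_two_fun, pd_fn0_zero_fun f0, pd_fn0_one_fun f0]
  simp only [pd_fn0_nil, pd_fn0_zero _ (l k) f1, pd_fn0_one _ (l k) f1, pd_fn0_zero _ (l k) f2,
    pd_fn0_one _ (l k) f2, pd_fn0_zero _ (l k) g0, pd_fn0_one _ (l k) g0, pd_fn0_two,
    pd_fn0_zero _ (l k) c0, pd_fn0_one _ (l k) c0,
    pd_fn1_zero _ (l k) a0 a1, pd_fn1_one _ (l k) a0 a1, pd_fn1_two _ (l k) a1,
    pd_fn1_zero _ (l k) b0 b1, pd_fn1_one _ (l k) b0 b1, pd_fn1_two _ (l k) b1]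
  simp only [fn0, fn1, pt, Div.step, Matrix.cons_val_zero, Matrix.cons_val_one, Matrix.cons_val_two,
    Matrix.head_cons, Matrix.tail_cons, ← ev_flat f0 w D (l k), ← ev_flat f1 w D (l k), ← ev_flat f2 w D (l k), ← ev_flat g0 w D (l k),
    ← ev_flat a0 w D (l k), ← ev_flat a1 w D (l k), ← ev_flat b0 w D (l k), ← ev_flat b1 w D (l k),
    ← ev_flat c0 w D (l k), hsym, show ∀ a b c : ℝ, ev a b c [] = 0 from fun _ _ _ => rfl]
  simp only [lead, rest, e0]
  ring

theorem hess_symm_FP : ev w D L (dW (dD FP)) = ev w D L (dD (dW FP)) := by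
  simp [ev, ev3, monE, FP, dW, dD, pderiv, zadd, Mdl.add, Mdl.zero]

theorem const_eq {l : Fin 4 → ℝ} :
    const cert l w D = base w D L (cubic l) := by
  have f0 : flat FP = true := by decide +kernel
  have b0 : flat beP = true := by decide +kernel
  have b1 : flat be1P = true := by decide +kernel
  have c0 : flat gaP = true := by decide +kernel
  simp only [const, cert, pd_fn0_one _ L f0]
  simp only [fn0, fn1, pt, Matrix.cons_val_zero, Matrix.cons_val_one, Matrix.cons_val_two,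
    Matrix.head_cons, Matrix.tail_cons, ← ev_flat b0 w D L, ← ev_flat b1 w D L, ← ev_flat c0 w D L]
  simp only [base, e0]
  ring

/-- The interior inequality at one jet, from the forms at two bounds on the invariant. -/
theorem quad_nonneg {l : Fin 4 → ℝ} (hl : Spectrum l) (hD : D ≤ 1) {k : Fin 4} (hk : l k = L)
    {qA qB : List ℤ} (hA : ev 0 0 L [[qA]] ≤ 1024 * cubic l)
    (hB : 1024 * cubic l ≤ ev 0 0 L [[qB]])
    (hlead : 0 ≤ lead w D L)
    (cA : ∀ ν η π, 0 ≤ ev3 (qv ν η π) w D L (quadForm [[qA]]))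
    (cB : ∀ ν η π, 0 ≤ ev3 (qv ν η π) w D L (quadForm [[qB]]))
    {x : Fin 4 → ℝ} (hx : ∑ i, x i = 0) (π : ℝ) :
    0 ≤ (1 - D) * quad cert l w D k x π + const cert l w D * π ^ 2 := by
  have hK := normK_lower hl k hx
  rw [hk] at hK
  rw [quad_eq k x π hk hess_symm_FP, const_eq]
  obtain ⟨τ, hτ⟩ : ∃ τ, cubic l = τ := ⟨_, rfl⟩
  obtain ⟨n, hn⟩ : ∃ n, nu l x = n := ⟨_, rfl⟩
  obtain ⟨m, hm⟩ : ∃ m, mu l x = m := ⟨_, rfl⟩
  rw [hτ] at hA hB hK ⊢
  rw [hn, hm] at hK ⊢
  have hG : (0 : ℝ) < 3 + 4 * L ^ 2 := by positivity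
  obtain ⟨ν, hν⟩ : ∃ ν, ν = 9 * n / (3 + 4 * L ^ 2) := ⟨_, rfl⟩
  obtain ⟨η, hη⟩ : ∃ η, η = 3 * (m - kap L τ * n) := ⟨_, rfl⟩
  have h0 : 0 ≤ phi w D L ν η π τ := by
    refine phi_between w D L (a := ev 0 0 L [[qA]] / 1024) (b := ev 0 0 L [[qB]] / 1024)
      (by linarith) (by linarith) ?_ ?_
    · have := cA ν η π
      rw [ev3_quad_eq] at this
      linarith
    · have := cB ν η π
      rw [ev3_quad_eq] at this
      linarith
  have e1 : (3 + 4 * L ^ 2) / 9 * ν = n := by rw [hν]; field_simp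
  have e2 : η / 3 + (-L + 4 * L ^ 3 - 4 * L ^ 2 * τ) / 9 * ν = m - τ * n := by
    rw [hη, hν, kap]; field_simp; ring
  have e3 : (3 + 4 * L ^ 2) / 9 * ν ^ 2 + η ^ 2
      = 9 * n ^ 2 / (3 + 4 * L ^ 2) + 9 * (m - kap L τ * n) ^ 2 := by
    rw [hη, hν]; field_simp; ring
  rw [phi, e1, e2, e3] at h0
  refine h0.trans ?_
  gcongr

end

end Vale.Agent.P098.Five
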