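import Vale.Agent.P098.Five.Bounds

/-!
# P098, five dimensions: the scalar checks
-/

namespace Vale.Agent.P098.Five

theorem checkR10L :
    checkBox ⟨0, 0, 3, -867, 434, 1000⟩ .leaf (scalarForm (pc (-1) (offP T0L))) = true := by
  decide +kernel

/-- A subdivision. -/
def treeR20L : Tree :=
    (.node₂ .leaf (.node₂ .leaf .leaf))

theorem checkR20L :
    checkBox ⟨0, 0, 6, -867, 434, 1000⟩ treeR20L (scalarForm (rangeP T0L)) = true := by
  decide +kernel

theorem checkB0L :
    checkBox ⟨0, 0, 3, -867, 434, 1000⟩ .leaf (scalarForm (bdryP T0L)) = true := by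
  decide +kernel

theorem checkR10U :
    checkBox ⟨0, 0, 3, -867, 434, 1000⟩ .leaf (scalarForm (offP T0U)) = true := by
  decide +kernel

/-- A subdivision. -/
def treeR20U : Tree :=
    (.node₂ .leaf .leaf)

theorem checkR20U :
    checkBox ⟨0, 0, 6, -867, 434, 1000⟩ treeR20U (scalarForm (rangeP T0U)) = true := by
  decide +kernel

theorem checkB0U :
    checkBox ⟨0, 0, 3, -867, 434, 1000⟩ .leaf (scalarForm (bdryP T0U)) = true := by
  decide +kernel

theorem checkR11L :
    checkBox ⟨0, 0, 3, -433, 433, 1000⟩ .leaf (scalarForm (pc (-1) (offP T1L))) = true := by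
  decide +kernel

/-- A subdivision. -/
def treeR21L : Tree :=
    (.node₂ .leaf .leaf)

theorem checkR21L :
    checkBox ⟨0, 0, 6, -433, 433, 1000⟩ treeR21L (scalarForm (rangeP T1L)) = true := by
  decide +kernel

theorem checkB1L :
    checkBox ⟨0, 0, 3, -433, 433, 1000⟩ .leaf (scalarForm (bdryP T1L)) = true := by
  decide +kernel

theorem checkR11U :
    checkBox ⟨0, 0, 3, -433, 433, 1000⟩ .leaf (scalarForm (offP T1U)) = true := by
  decide +kernel

/-- A subdivision. -/
def treeR21U : Tree :=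
    (.node₂ .leaf .leaf)

theorem checkR21U :
    checkBox ⟨0, 0, 6, -433, 433, 1000⟩ treeR21U (scalarForm (rangeP T1U)) = true := by
  decide +kernel

theorem checkB1U :
    checkBox ⟨0, 0, 3, -433, 433, 1000⟩ .leaf (scalarForm (bdryP T1U)) = true := by
  decide +kernel

theorem checkR12L :
    checkBox ⟨0, 0, 3, 0, 433, 1000⟩ .leaf (scalarForm (pc (-1) (offP T2L))) = true := by
  decide +kernel

/-- A subdivision. -/
def treeR22L : Tree :=
    (.node₂ .leaf .leaf)

theorem checkR22L :
    checkBox ⟨0, 0, 6, 0, 433, 1000⟩ treeR22L (scalarForm (rangeP T2L)) = true := by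
  decide +kernel

theorem checkR12U :
    checkBox ⟨0, 0, 3, 0, 433, 1000⟩ .leaf (scalarForm (offP T2U)) = true := by
  decide +kernel

/-- A subdivision. -/
def treeR22U : Tree :=
    (.node₂ .leaf .leaf)

theorem checkR22U :
    checkBox ⟨0, 0, 6, 0, 433, 1000⟩ treeR22U (scalarForm (rangeP T2U)) = true := by
  decide +kernel

theorem checkR13L :
    checkBox ⟨0, 0, 3, 433, 267, 1000⟩ .leaf (scalarForm (pc (-1) (offP T3L))) = true := by
  decide +kernel

theorem checkR23L :
    checkBox ⟨0, 0, 6, 433, 267, 1000⟩ .leaf (scalarForm (rangeP T3L)) = true := by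
  decide +kernel

theorem checkR13U :
    checkBox ⟨0, 0, 3, 433, 267, 1000⟩ .leaf (scalarForm (offP T3U)) = true := by
  decide +kernel

/-- A subdivision. -/
def treeR23U : Tree :=
    (.node₂ .leaf .leaf)

theorem checkR23U :
    checkBox ⟨0, 0, 6, 433, 267, 1000⟩ treeR23U (scalarForm (rangeP T3U)) = true := by
  decide +kernel

theorem checkR14L :
    checkBox ⟨0, 0, 3, 700, 167, 1000⟩ .leaf (scalarForm (pc (-1) (offP T4L))) = true := by
  decide +kernel

theorem checkR24L :
    checkBox ⟨0, 0, 6, 700, 167, 1000⟩ .leaf (scalarForm (rangeP T4L)) = true := by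
  decide +kernel

theorem checkR14U :
    checkBox ⟨0, 0, 3, 700, 167, 1000⟩ .leaf (scalarForm (offP T4U)) = true := by
  decide +kernel

theorem checkR24U :
    checkBox ⟨0, 0, 6, 700, 167, 1000⟩ .leaf (scalarForm (rangeP T4U)) = true := by
  decide +kernel

/-- A subdivision. -/
def treeEL : Tree :=
    (.node₀ (.node₁ (.node₀ .leaf .leaf) (.node₀ (.node₁ .leaf (.node₁ .leaf (.node₁ .leaf .leaf)))
    (.node₁ .leaf (.node₀ (.node₁ .leaf (.node₁ (.node₀ .leaf .leaf) (.node₁ (.node₀ (.node₀ .leaf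
    (.node₁ .leaf .leaf)) .leaf) .leaf))) .leaf)))) .leaf)

theorem checkEL :
    checkBox ⟨6, 5, 0, 0, 1, 1⟩ treeEL (scalarForm (endP (cst (-613)))) = true := by
  decide +kernel

/-- A subdivision. -/
def treeEU : Tree :=
    (.node₀ (.node₁ (.node₀ (.node₁ (.node₁ (.node₁ (.node₀ (.node₀ .leaf (.node₁ (.node₀ .leaf
    (.node₁ (.node₁ .skip .leaf) .leaf)) .leaf)) (.node₀ (.node₀ (.node₁ (.node₁ .skip .leaf) .leaf)
    .leaf) .leaf)) .leaf) .leaf) .leaf) (.node₁ .leaf .leaf)) .leaf) (.node₁ .leaf (.node₀ (.node₀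
    (.node₀ .leaf .leaf) .leaf) .leaf)))

theorem checkEU :
    checkBox ⟨6, 5, 0, 0, 1, 1⟩ treeEU (scalarForm (endP (cst 600))) = true := by
  decide +kernel

theorem checkA :
    checkBox ⟨4, 4, 0, 0, 1, 1⟩ .leaf (scalarForm AP) = true := by
  decide +kernel

end Vale.Agent.P098.Five
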