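import Vale.Agent.P098.Five.Band
import Vale.Agent.P098.Five.Quad
import Vale.Agent.P098.Five.Side
import Vale.Agent.P098.Five.Q0L
import Vale.Agent.P098.Five.Q0U
import Vale.Agent.P098.Five.Q1L
import Vale.Agent.P098.Five.Q1U
import Vale.Agent.P098.Five.Q2L
import Vale.Agent.P098.Five.Q2U
import Vale.Agent.P098.Five.Q3L
import Vale.Agent.P098.Five.Q3U
import Vale.Agent.P098.Five.Q4L
import Vale.Agent.P098.Five.Q4U

/-!
# P098, five dimensions: the certificate

The checked forms give all conditions on the five functions.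
-/

namespace Vale.Agent.P098.Five

open Vale.Agent.P098.Div Vale.Agent.P098.Cone

noncomputable section

theorem scalar_nonneg {R : Root} {T : Tree} {p : P3 ℤ} (h : checkBox R T (scalarForm p) = true)
    {w D l t : ℝ} (hw : 0 ≤ w) (hD : 0 ≤ D) (hD' : D ≤ 1) (hdom : 5 * w ^ 2 ≤ 4 * D)
    (ht : 0 ≤ t) (ht' : t ≤ 1) (hl : (R.den : ℝ) * l = R.A + R.H * t) : 0 ≤ ev w D l p := by
  have := checkBox_sound h hw hD hD' hdom ht ht' hl 0 0 1
  rwa [ev3_scalarForm] at this

/-- The segment `[A, B] / 1000` as an affine image of the unit interval. -/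
theorem unit_of {A H : ℤ} {L : ℝ} (hH : (0 : ℝ) < H) (h1 : (A : ℝ) ≤ 1000 * L)
    (h2 : 1000 * L ≤ A + H) :
    ∃ t : ℝ, 0 ≤ t ∧ t ≤ 1 ∧ ((1000 : ℤ) : ℝ) * L = A + H * t :=
  ⟨(1000 * L - A) / H, div_nonneg (by linarith) hH.le, (div_le_one hH).2 (by linarith), by
    rw [mul_div_cancel₀ _ hH.ne']; push_cast; ring⟩

theorem ev_offP (L : ℝ) (qT : List ℤ) :
    ev 0 0 L (offP [[qT]]) = 9 * ev 0 0 L [[qT]] - 1024 * (20 * L ^ 3 - 9 * L) := by
  simp only [offP, ev_pa, ev_pc, ev_pm, ev_lP]; push_cast; ring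

theorem sq_bound {L τ : ℝ} (hr : Range L τ) {qT : List ℤ}
    (h2 : 0 ≤ ev 0 0 L (rangeP [[qT]])) :
    (9216 * (τ - centre L)) ^ 2 ≤ (ev 0 0 L (offP [[qT]])) ^ 2 := by
  simp only [rangeP, capP, ev_pa, ev_pc, ev_pm, ev_lP, ev_cst] at h2
  push_cast at h2
  linear_combination (1 / 162) * h2 + (9216 ^ 2 / 6) * hr.bound

theorem le_upper {L τ : ℝ} (hr : Range L τ) {qT : List ℤ} (h1 : 0 ≤ ev 0 0 L (offP [[qT]]))
    (h2 : 0 ≤ ev 0 0 L (rangeP [[qT]])) : 1024 * τ ≤ ev 0 0 L [[qT]] := by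
  have h := (abs_le_of_sq_le_sq' (sq_bound hr h2) h1).2
  rw [ev_offP, centre] at h
  linarith

theorem lower_le {L τ : ℝ} (hr : Range L τ) {qT : List ℤ}
    (h1 : 0 ≤ ev 0 0 L (pc (-1) (offP [[qT]]))) (h2 : 0 ≤ ev 0 0 L (rangeP [[qT]])) :
    ev 0 0 L [[qT]] ≤ 1024 * τ := by
  rw [ev_pc] at h1
  push_cast at h1
  have h := (abs_le_of_sq_le_sq' (a := 9216 * (τ - centre L)) (b := -ev 0 0 L (offP [[qT]]))
    (by rw [neg_sq]; exact sq_bound hr h2) (by linarith)).1
  rw [ev_offP, centre] at h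
  linarith

/-- Two bounds on the invariant at the marked eigenvalue `L`, at which the forms are nonnegative. -/
def SegOK (L τ : ℝ) : Prop :=
  ∃ qA qB : List ℤ, ev 0 0 L [[qA]] ≤ 1024 * τ ∧ 1024 * τ ≤ ev 0 0 L [[qB]] ∧
    (-613 ≤ ev 0 0 L [[qA]]) ∧ (ev 0 0 L [[qB]] ≤ 600) ∧
    (L ≤ 0 → 0 ≤ ev 0 0 L (bdryP [[qA]]) ∧ 0 ≤ ev 0 0 L (bdryP [[qB]])) ∧
    ∀ w D : ℝ, 0 ≤ w → 0 ≤ D → D ≤ 1 → 5 * w ^ 2 ≤ 4 * D → ∀ ν η π : ℝ,
      0 ≤ ev3 (qv ν η π) w D L (quadForm [[qA]]) ∧ 0 ≤ ev3 (qv ν η π) w D L (quadForm [[qB]])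

theorem seg_ok {L τ : ℝ} (hr : Range L τ) : SegOK L τ := by
  have hL : -(867 / 1000) ≤ L ∧ L ≤ 867 / 1000 :=
    abs_le_of_sq_le_sq' (by linarith [hr.cap]) (by norm_num)
  rcases le_or_gt (1000 * L) (-433) with c1 | c1
  · obtain ⟨t, t0, t1, ht⟩ := unit_of (A := -867) (H := 434) (L := L) (by norm_num)
      (by push_cast; linarith) (by push_cast; linarith)
    have S := fun {R : Root} {T} {p} (h : checkBox R T (scalarForm p) = true)
      (hR : (R.den : ℝ) * L = R.A + R.H * t) =>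
      scalar_nonneg (w := 0) (D := 0) h le_rfl le_rfl zero_le_one (by norm_num) t0 t1 hR
    refine ⟨_, _, lower_le hr (S checkR10L ht) (S checkR20L ht),
      le_upper hr (S checkR10U ht) (S checkR20U ht), ?_, ?_,
      fun _ => ⟨S checkB0L ht, S checkB0U ht⟩, fun w D hw hD hD' hd ν η π =>
      ⟨checkBox_sound checkQ0L hw hD hD' hd t0 t1 ht ν η π,
        checkBox_sound checkQ0U hw hD hD' hd t0 t1 ht ν η π⟩⟩ <;>
      (simp [ev, ev3, monE]; nlinarith [sq_nonneg (4436 * L + 1219), sq_nonneg (4436 * L - 1219)])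
  rcases le_or_gt (1000 * L) 0 with c2 | c2
  · obtain ⟨t, t0, t1, ht⟩ := unit_of (A := -433) (H := 433) (L := L) (by norm_num)
      (by push_cast; linarith) (by push_cast; linarith)
    have S := fun {R : Root} {T} {p} (h : checkBox R T (scalarForm p) = true)
      (hR : (R.den : ℝ) * L = R.A + R.H * t) =>
      scalar_nonneg (w := 0) (D := 0) h le_rfl le_rfl zero_le_one (by norm_num) t0 t1 hR
    refine ⟨_, _, lower_le hr (S checkR11L ht) (S checkR21L ht),
      le_upper hr (S checkR11U ht) (S checkR21U ht), ?_, ?_,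
      fun _ => ⟨S checkB1L ht, S checkB1U ht⟩, fun w D hw hD hD' hd ν η π =>
      ⟨checkBox_sound checkQ1L hw hD hD' hd t0 t1 ht ν η π,
        checkBox_sound checkQ1U hw hD hD' hd t0 t1 ht ν η π⟩⟩ <;>
      (simp [ev, ev3, monE]; nlinarith [sq_nonneg (4436 * L + 1219), sq_nonneg (4436 * L - 1219)])
  rcases le_or_gt (1000 * L) 433 with c3 | c3
  · obtain ⟨t, t0, t1, ht⟩ := unit_of (A := 0) (H := 433) (L := L) (by norm_num)
      (by push_cast; linarith) (by push_cast; linarith)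
    have S := fun {R : Root} {T} {p} (h : checkBox R T (scalarForm p) = true)
      (hR : (R.den : ℝ) * L = R.A + R.H * t) =>
      scalar_nonneg (w := 0) (D := 0) h le_rfl le_rfl zero_le_one (by norm_num) t0 t1 hR
    refine ⟨_, _, lower_le hr (S checkR12L ht) (S checkR22L ht),
      le_upper hr (S checkR12U ht) (S checkR22U ht), ?_, ?_,
      fun h => absurd h (by linarith), fun w D hw hD hD' hd ν η π =>
      ⟨checkBox_sound checkQ2L hw hD hD' hd t0 t1 ht ν η π,
        checkBox_sound checkQ2U hw hD hD' hd t0 t1 ht ν η π⟩⟩ <;>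
      (simp [ev, ev3, monE]; nlinarith [sq_nonneg (4436 * L + 1219), sq_nonneg (4436 * L - 1219)])
  rcases le_or_gt (1000 * L) 700 with c4 | c4
  · obtain ⟨t, t0, t1, ht⟩ := unit_of (A := 433) (H := 267) (L := L) (by norm_num)
      (by push_cast; linarith) (by push_cast; linarith)
    have S := fun {R : Root} {T} {p} (h : checkBox R T (scalarForm p) = true)
      (hR : (R.den : ℝ) * L = R.A + R.H * t) =>
      scalar_nonneg (w := 0) (D := 0) h le_rfl le_rfl zero_le_one (by norm_num) t0 t1 hR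
    refine ⟨_, _, lower_le hr (S checkR13L ht) (S checkR23L ht),
      le_upper hr (S checkR13U ht) (S checkR23U ht), ?_, ?_,
      fun h => absurd h (by linarith), fun w D hw hD hD' hd ν η π =>
      ⟨checkBox_sound checkQ3L hw hD hD' hd t0 t1 ht ν η π,
        checkBox_sound checkQ3U hw hD hD' hd t0 t1 ht ν η π⟩⟩ <;>
      (simp [ev, ev3, monE]; nlinarith [sq_nonneg (4436 * L + 1219), sq_nonneg (4436 * L - 1219)])
  obtain ⟨t, t0, t1, ht⟩ := unit_of (A := 700) (H := 167) (L := L) (by norm_num)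
    (by push_cast; linarith) (by push_cast; linarith)
  have S := fun {R : Root} {T} {p} (h : checkBox R T (scalarForm p) = true)
      (hR : (R.den : ℝ) * L = R.A + R.H * t) =>
    scalar_nonneg (w := 0) (D := 0) h le_rfl le_rfl zero_le_one (by norm_num) t0 t1 hR
  refine ⟨_, _, lower_le hr (S checkR14L ht) (S checkR24L ht),
    le_upper hr (S checkR14U ht) (S checkR24U ht), ?_, ?_,
    fun h => absurd h (by linarith), fun w D hw hD hD' hd ν η π =>
    ⟨checkBox_sound checkQ4L hw hD hD' hd t0 t1 ht ν η π,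
      checkBox_sound checkQ4U hw hD hD' hd t0 t1 ht ν η π⟩⟩ <;>
    (simp [ev, ev3, monE]; nlinarith [sq_nonneg (4436 * L + 1219), sq_nonneg (4436 * L - 1219)])

theorem ev_gP (w D : ℝ) : ev w D 0 gP = 4096 + 461 * D + 409 * w := by
  simp [ev, ev3, gP, monE]; ring

theorem lead_nonneg {w D : ℝ} (L : ℝ) (hw : 0 ≤ w) (hD : 0 ≤ D) (hD' : D ≤ 1)
    (hdom : 5 * w ^ 2 ≤ 4 * D) : 0 ≤ lead w D L := by
  have f0 : flat FP = true := by decide +kernel
  have f1 : flat (dW FP) = true := by decide +kernel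
  have h := lead_nonneg_of w D 0 fun ν η π =>
    checkBox_sound checkA hw hD hD' hdom (t := 0) le_rfl zero_le_one (by norm_num) ν η π
  simpa only [lead, e0, ev_flat f0 w D L, ev_flat f1 w D L] using h

theorem dom_five {w D : ℝ} (h : InDom prof w D) :
    0 ≤ w ∧ 0 ≤ D ∧ D ≤ 1 ∧ 5 * w ^ 2 ≤ 4 * D := by
  obtain ⟨h0, h1, h2, h3⟩ := h
  simp only [prof] at h3
  exact ⟨h0.le, h1, h2.le, by linarith⟩

theorem certifies : Certifies 4 (22501 / 10000) cert prof where
  smooth := cert_smooth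
  hardy := by norm_num
  quad l hl w D hd k x π hx := by
    obtain ⟨hw, hD, hD', hdom⟩ := dom_five hd
    obtain ⟨qA, qB, hA, hB, -, -, -, hform⟩ := seg_ok (range_of_spectrum hl k)
    exact quad_nonneg hl hD' rfl hA hB (lead_nonneg _ hw hD hD' hdom)
      (fun ν η π => (hform w D hw hD hD' hdom ν η π).1)
      (fun ν η π => (hform w D hw hD hD' hdom ν η π).2) hx π
  triple l hl w D hd i j k _ _ _ := by
    obtain ⟨hw, hD, hD', hdom⟩ := dom_five hd
    have f0 : flat FP = true := by decide +kernel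
    have h := lead_nonneg 0 hw hD hD' hdom
    simp only [cert, pd_fn0_two, pd_fn0_zero _ 0 f0]
    simpa [lead, e0, fn0, pt] using h
  endpoint l hl w D hd := by
    obtain ⟨hw, hD, hD', hdom⟩ := dom_five hd
    obtain ⟨qA, qB, hA, hB, hA6, hB6, -⟩ := seg_ok (range_of_spectrum hl 0)
    have hl' := scalar_nonneg checkEL hw hD hD' hdom (l := 0) (t := 0) le_rfl zero_le_one (by norm_num)
    have hu := scalar_nonneg checkEU hw hD hD' hdom (l := 0) (t := 0) le_rfl zero_le_one (by norm_num)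
    simp only [endP, SP, alT, beT, ev_pa, ev_pc, ev_pm, ev_cst, ev_wP, UP, ev_DP] at hl' hu
    push_cast at hl' hu
    rw [const_eq (L := 0)]
    simp only [cert, fn0, fn1, pt, base, e0, Matrix.cons_val_zero, Matrix.cons_val_one,
      Matrix.cons_val_two, Matrix.head_cons, Matrix.tail_cons]
    obtain ⟨τ, hτ⟩ : ∃ τ, cubic l = τ := ⟨_, rfl⟩
    rw [hτ] at hA hB ⊢
    have k1 : 0 ≤ 613 + 1024 * τ := by linarith
    have k2 : 0 ≤ 600 - 1024 * τ := by linarith
    push_cast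
    linear_combination (1 / (1213 * 10000 * 4096 ^ 2 * 1024)) * mul_nonneg k2 hl'
      + (1 / (1213 * 10000 * 4096 ^ 2 * 1024)) * mul_nonneg k1 hu
  bdry l hl k hk := by
    obtain ⟨qA, qB, hA, hB, -, -, hb, -⟩ := seg_ok (range_of_spectrum hl k)
    obtain ⟨hbA, hbB⟩ := hb hk
    have f0 : flat FP = true := by decide +kernel
    have g0 : flat gP = true := by decide +kernel
    have a0 : flat alP = true := by decide +kernel
    have a1 : flat al1P = true := by decide +kernel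
    have b0 : flat beP = true := by decide +kernel
    have b1 : flat be1P = true := by decide +kernel
    have c0 : flat gaP = true := by decide +kernel
    simp only [bdryP, alT, beT, ev_at0, ev_pa, ev_pc, ev_pm, ev_lP] at hbA hbB
    push_cast at hbA hbB
    simp only [cert, pd_fn0_two, pd_fn0_zero _ (l k) f0, pd_fn0_one _ (l k) f0]
    simp only [fn0, fn1, pt, Matrix.cons_val_zero, Matrix.cons_val_one, Matrix.cons_val_two,
      Matrix.head_cons, Matrix.tail_cons, ← ev_flat f0 0 0 (l k), ← ev_flat g0 0 0 (l k),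
      ← ev_flat a0 0 0 (l k), ← ev_flat a1 0 0 (l k), ← ev_flat b0 0 0 (l k), ← ev_flat b1 0 0 (l k),
      ← ev_flat c0 0 0 (l k)]
    obtain ⟨τ, hτ⟩ : ∃ τ, cubic l = τ := ⟨_, rfl⟩
    rw [hτ] at hA hB ⊢
    generalize ev 0 0 (l k) [[qA]] = ta at hA hbA
    generalize ev 0 0 (l k) [[qB]] = tb at hB hbB
    rcases (hA.trans hB).eq_or_lt with he | hlt
    · obtain rfl : ta = 1024 * τ := le_antisymm hA (he ▸ hB)
      linear_combination (1 / (4096 ^ 2 * 1024)) * hbA
    · refine nonneg_of_mul_nonneg_right (b := _) ?_ (sub_pos.2 hlt)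
      linear_combination (1 / (4096 ^ 2 * 1024)) * mul_nonneg (sub_nonneg.2 hB) hbA
        + (1 / (4096 ^ 2 * 1024)) * mul_nonneg (sub_nonneg.2 hA) hbB
  nonzero l _ w D hd := by
    obtain ⟨hw, hD, -, -⟩ := dom_five hd
    simp only [cert, fn0, pt, Matrix.cons_val_zero, Matrix.cons_val_one, ev_gP]
    exact (div_pos (by linarith) (by norm_num)).ne'

end

end Vale.Agent.P098.Five
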