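import Vale.Agent.P098.Five.Box

/-!
# P098, five dimensions: the coefficients of the certificate

Polynomials in `(w, D)` with integer coefficients, to be divided by `4096`; the outer list runs over
the powers of `w`. The fields are `g`, `F`, `al = al + t al₁`, `be = be + t be₁` and `ga`.
-/

namespace Vale.Agent.P098.Five

/-- The coefficients of g. -/
def gP : P3 ℤ :=
  [[[4096], [461]],
   [[409]]]

/-- The coefficients of F. -/
def FP : P3 ℤ :=
  [[[2427], [1390], [-7942], [17307], [-10314]],
   [[469], [3320], [-5254], [2849]],
   [[4208], [-13913], [978]],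
   [[-2057], [17079]],
   [[11838]]]

/-- The coefficients of al at t = 0. -/
def alP : P3 ℤ :=
  [[[464], [1748], [-39419], [53090], [-14291]],
   [[-4073], [64180], [-71844], [-6937]],
   [[5677], [-11007], [-23673]],
   [[-60255], [204744]],
   [[-68757]]]

/-- The coefficients of be at t = 0. -/
def beP : P3 ℤ :=
  [[[4147], [-45270], [182863], [-178775], [33304]],
   [[26260], [-204773], [204783], [-31554]],
   [[59236], [-28223], [-35280]],
   [[93605], [-177870]],
   [[204477]]]

/-- The coefficients of ga. -/
def gaP : P3 ℤ :=
  [[[1272], [-23994], [53350], [-45451]],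
   [[17538], [5216], [113654]],
   [[-44502], [-204737]],
   [[151068]]]

/-- The coefficients of the t-part of al. -/
def al1P : P3 ℤ :=
  [[[1708], [-5958]],
   [[1047]]]

/-- The coefficients of the t-part of be. -/
def be1P : P3 ℤ :=
  [[[-826], [4775], [4353]],
   [[-3717], [-45035]],
   [[5600]]]

end Vale.Agent.P098.Five
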