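import Vale.Agent.P098.Five.Coeffs

/-!
# P098, five dimensions: the entries of the checked forms

All entries are built from the coefficient data by polynomial operations, so that the kernel can
evaluate them and their values are known by rewriting. The bound on the cubic invariant enters as a
polynomial `T` in the eigenvalue, over `1024`.
-/

namespace Vale.Agent.P098.Five

open Mdl (zero add smul)

/-- The value at `(w, D, l)`. -/
def ev (w D l : ℝ) (p : P3 ℤ) : ℝ := ev3 (fun a : ℤ => (a : ℝ)) w D l p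

/-- Sum. -/
def pa (p q : P3 ℤ) : P3 ℤ := add p q

/-- Multiple. -/
def pc (c : ℤ) (p : P3 ℤ) : P3 ℤ := smul c p

/-- Product. -/
def pm (p q : P3 ℤ) : P3 ℤ := pmul (pmul (pmul (· * ·))) p q

/-- A constant. -/
def cst (c : ℤ) : P3 ℤ := [[[c]]]

/-- The variable `w`. -/
def wP : P3 ℤ := [[], [[1]]]

/-- The variable `D`. -/
def DP : P3 ℤ := [[[], [1]]]

/-- The variable `l`. -/
def lP : P3 ℤ := [[[0, 1]]]

/-- The derivative in `w`. -/
def dW (p : P3 ℤ) : P3 ℤ := pderiv p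

/-- The derivative in `D`. -/
def dD (p : P3 ℤ) : P3 ℤ := p.map pderiv

theorem ev_pa (w D l : ℝ) (p q : P3 ℤ) : ev w D l (pa p q) = ev w D l p + ev w D l q :=
  (((isLin_int.mon l).mon D).mon w).add p q

theorem ev_pc (w D l : ℝ) (c : ℤ) (p : P3 ℤ) : ev w D l (pc c p) = c * ev w D l p :=
  (((isLin_int.mon l).mon D).mon w).smul c p

theorem ev_pm (w D l : ℝ) (p q : P3 ℤ) : ev w D l (pm p q) = ev w D l p * ev w D l q :=
  monE_pmul ((isLin_int.mon l).mon D)
    (monE_pmul (isLin_int.mon l) (monE_pmul isLin_int (fun a b => Int.cast_mul a b) l) D) w p q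

theorem ev_cst (w D l : ℝ) (c : ℤ) : ev w D l (cst c) = c := by simp [ev, ev3, cst, monE]

theorem ev_wP (w D l : ℝ) : ev w D l wP = w := by simp [ev, ev3, wP, monE]

theorem ev_DP (w D l : ℝ) : ev w D l DP = D := by simp [ev, ev3, DP, monE]

theorem ev_lP (w D l : ℝ) : ev w D l lP = l := by simp [ev, ev3, lP, monE]

theorem hasDerivAt_ev_w (w D l : ℝ) (p : P3 ℤ) :
    HasDerivAt (fun t => ev t D l p) (ev w D l (dW p)) w :=
  hasDerivAt_monE ((isLin_int.mon l).mon D) w p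

theorem hasDerivAt_ev_D (w D l : ℝ) :
    ∀ p : P3 ℤ, HasDerivAt (fun t => ev w t l p) (ev w D l (dD p)) D
  | [] => by simpa [ev, ev3, monE, dD] using hasDerivAt_const D (0 : ℝ)
  | a :: p => by
      simpa [ev, ev3, monE, dD] using
        (hasDerivAt_monE (isLin_int.mon l) D a).fun_add ((hasDerivAt_ev_D w D l p).const_mul w)

/-- `1 - D`. -/
def UP : P3 ℤ := pa (cst 1) (pc (-1) DP)

/-- `9 G11 = 3 + 4 l ^ 2`. -/
def GP : P3 ℤ := pa (cst 3) (pc 4 (pm lP lP))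

/-- The value of `al`, times `4096 * 1024`. -/
def alT (T : P3 ℤ) : P3 ℤ := pa (pc 1024 alP) (pm T al1P)

/-- The value of `be`, times `4096 * 1024`. -/
def beT (T : P3 ℤ) : P3 ℤ := pa (pc 1024 beP) (pm T be1P)

/-- `F + w F_w`, times `4096`. -/
def AP : P3 ℤ := pa FP (pm wP (dW FP))

/-- `g / 2 + w g_w`, times `2 * 4096`. -/
def gsP : P3 ℤ := pa gP (pc 2 (pm wP (dW gP)))

/-- `g_w - 2 l g_D`, times `4096`. -/
def gdP : P3 ℤ := pa (dW gP) (pc (-2) (pm lP (dD gP)))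

/-- The coefficient of `n ^ 2` in excess of the bound, times `4 * 4096 ^ 2`. -/
def aVP : P3 ℤ :=
  pa (pc (4 * 4096) (pa (pa (pc 2 (pm wP (dW FP))) (pm (pm wP wP) (dW (dW FP)))) (pc (-1) AP)))
    (pc (-1) (pm gsP gsP))

/-- The coefficient of `2 n π`, times `2 * 4096 ^ 2 * 1024`. -/
def b0P (T : P3 ℤ) : P3 ℤ :=
  pa
    (pa
      (pc (2 * 4096 * 1024)
        (pa (pa (pc 2 (dW FP)) (pc (-2) (pm lP (dD FP))))
          (pa (pm wP (dW (dW FP))) (pc (-2) (pm (pm lP wP) (dD (dW FP)))))))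
      (pc 4096
        (pa (pa (pa (pc 2 (alT T)) (pm wP (dW (alT T)))) (pa (pm lP (beT T)) (pm (pm lP wP) (dW (beT T)))))
          (pc 1024 (pa (pm (pm (pm lP lP) wP) (dW gaP)) gaP)))))
    (pc (-1024) (pm gsP gdP))

/-- The coefficient of `π ^ 2`, times `4096 ^ 2 * 1024`. -/
def c0P (T : P3 ℤ) : P3 ℤ :=
  pa
    (pc 4096
      (pa
        (pc 1024
          (pa (pa (dW (dW FP)) (pc (-4) (pm lP (dD (dW FP)))))
            (pa (pc 4 (pm (pm lP lP) (dD (dD FP))))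
              (pa (pm (pm lP lP) (dW gaP)) (pc (-2) (pm (pm (pm lP lP) lP) (dD gaP)))))))
        (pa (pa (dW (alT T)) (pc (-2) (pm lP (dD (alT T)))))
          (pa (pm lP (dW (beT T))) (pc (-2) (pm (pm lP lP) (dD (beT T))))))))
    (pc (-1024) (pm gdP gdP))

/-- The part free of the derivatives, times `4096 ^ 2 * 1024`. -/
def SP (T : P3 ℤ) : P3 ℤ := pc 4096 (pa (pa (pc (-2 * 1024) (dD FP)) (beT T)) (pm T gaP))

/-- The five entries, times `324 * 4096 ^ 2 * 1024`. -/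
def m11 : P3 ℤ := pa (pc (36 * 4096 * 1024) (pm GP AP)) (pc 1024 (pm (pm GP GP) aVP))

/-- See `m11`. -/
def m22 : P3 ℤ := pc (324 * 4096 * 1024) AP

/-- See `m11`. -/
def m13 (T : P3 ℤ) : P3 ℤ :=
  pa (pc 18 (pm GP (b0P T)))
    (pc (54 * 4096)
      (pm (pa (pc 1024 (pa (pc 4 (pm (pm lP lP) lP)) (pc (-1) lP))) (pc (-4) (pm (pm lP lP) T)))
        (pa al1P (pm lP be1P))))

/-- See `m11`. -/
def m23 : P3 ℤ := pc (162 * 4096 * 1024) (pa al1P (pm lP be1P))

/-- See `m11`. -/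
def m33 (T : P3 ℤ) : P3 ℤ := pc 324 (pa (pm UP (c0P T)) (SP T))

/-- An entry placed in the form. -/
def inj (v : V5) (p : P3 ℤ) : P3 V5 := p.map (·.map (·.map fun a => smul a v))

theorem ev3_inj (ν η π w D l : ℝ) (v : V5) (p : P3 ℤ) :
    ev3 (qv ν η π) w D l (inj v p) = qv ν η π v * ev w D l p := by
  rw [ev3, inj, monE_map]
  refine monE_congr w p fun r _ => ?_
  rw [monE_map]
  refine monE_congr D r fun q _ => ?_
  rw [monE_map]
  exact monE_congr l q fun a _ => by rw [(isLin_qv ν η π).smul, mul_comm]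

/-- The interior form. -/
def quadForm (T : P3 ℤ) : P3 V5 :=
  add (inj ⟨1, 0, 0, 0, 0⟩ (pm UP m11)) (add (inj ⟨0, 1, 0, 0, 0⟩ (pm UP m22))
    (add (inj ⟨0, 0, 1, 0, 0⟩ (pm UP (m13 T)))
      (add (inj ⟨0, 0, 0, 1, 0⟩ (pm UP m23)) (inj ⟨0, 0, 0, 0, 1⟩ (m33 T)))))

/-- A scalar condition as a form. -/
def scalarForm (p : P3 ℤ) : P3 V5 := inj ⟨0, 0, 0, 0, 1⟩ p

theorem ev3_scalarForm (w D l : ℝ) (p : P3 ℤ) :
    ev3 (qv 0 0 1) w D l (scalarForm p) = ev w D l p := by simp [scalarForm, ev3_inj, qv]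

/-- The end condition at the constant value `T` of the invariant, times `10000 * 4096 ^ 2 * 1024`. -/
def endP (T : P3 ℤ) : P3 ℤ :=
  pa (pc 10000 (pm (pm wP wP) (SP T)))
    (pm UP
      (pa
        (pc (10000 * 4096)
          (pa (pc 1024 (pa (pc 4 FP) (pc (-1) (pm wP gaP)))) (pc (-4) (pm wP (alT T)))))
        (pc (-22501 * 1024) (pm gP gP))))

/-- The restriction to `w = D = 0`. -/
def at0 (p : P3 ℤ) : P3 ℤ := (p.take 1).map (List.take 1)

theorem ev_at0 (w D l : ℝ) (p : P3 ℤ) : ev w D l (at0 p) = ev 0 0 l p := by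
  rcases p with _ | ⟨r, p⟩
  · simp [ev, ev3, at0, monE]
  · rcases r with _ | ⟨q, r⟩ <;> simp [ev, ev3, at0, monE]

/-- The boundary condition, times `4096 ^ 2 * 1024`. -/
def bdryP (T : P3 ℤ) : P3 ℤ :=
  at0
    (pa
      (pc 4096
        (pa
          (pa (pm (pa (pc (2 * 1024) lP) (pc (-1) T)) FP)
            (pc 1024 (pa (dW FP) (pc (-2) (pm lP (dD FP))))))
          (pa (pa (alT T) (pm lP (beT T))) (pc 1024 (pm (pm lP lP) gaP)))))
      (pc (-1024) (pm lP (pm gP gP))))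

theorem ev3_quadForm (ν η π w D l : ℝ) (T : P3 ℤ) :
    ev3 (qv ν η π) w D l (quadForm T) =
      (1 - D) * (ev w D l m11 * ν ^ 2 + ev w D l m22 * η ^ 2 + 2 * ev w D l (m13 T) * ν * π
        + 2 * ev w D l m23 * η * π) + ev w D l (m33 T) * π ^ 2 := by
  have hadd : ∀ p q : P3 V5, ev3 (qv ν η π) w D l (add p q) =
      ev3 (qv ν η π) w D l p + ev3 (qv ν η π) w D l q :=
    fun p q => ((((isLin_qv ν η π).mon l).mon D).mon w).add p q
  simp only [quadForm, hadd, ev3_inj, ev_pm, UP, ev_pa, ev_cst, ev_pc, ev_DP, qv]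
  push_cast
  ring

end Vale.Agent.P098.Five
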