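import Vale.Agent.P098.Five.Entries
import Vale.Agent.P098.Div.Spec

/-!
# P098, five dimensions: the five functions and their derivatives

The functions are polynomials in `(w, D)`, two of them affine in the cubic invariant. Their values and
derivatives are expressed through `ev` at an arbitrary value of the third variable.
-/

namespace Vale.Agent.P098.Five

open Vale.Agent.P098.Div Vale.Agent.P098.Cone
open scoped ContDiff

noncomputable section

/-- No entry depends on the third variable. -/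
def flat (p : P3 ℤ) : Bool := p.all fun r => r.all fun q => decide (q.length ≤ 1)

theorem ev_flat {p : P3 ℤ} (hp : flat p = true) (w D L : ℝ) : ev w D L p = ev w D 0 p := by
  simp only [flat, List.all_eq_true, decide_eq_true_eq] at hp
  refine (monE_congr (c := 1) w p fun r hr => ?_).trans (one_mul _)
  rw [one_mul]
  refine (monE_congr (c := 1) D r fun q hq => ?_).trans (one_mul _)
  have := hp r hr q hq
  rcases q with _ | ⟨a, _ | ⟨b, q⟩⟩
  · simp [monE]
  · simp [monE]
  · simp at this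

/-- A polynomial in `(w, D)`, divided by `4096`. -/
def fn0 (p : P3 ℤ) : (Fin 3 → ℝ) → ℝ := fun v => ev (v 0) (v 1) 0 p / 4096

/-- A polynomial in `(w, D)` affine in the invariant, divided by `4096`. -/
def fn1 (p q : P3 ℤ) : (Fin 3 → ℝ) → ℝ :=
  fun v => (ev (v 0) (v 1) 0 p + v 2 * ev (v 0) (v 1) 0 q) / 4096

/-- The five functions. -/
def cert : Fields := ⟨fn0 gP, fn0 FP, fn1 alP al1P, fn1 beP be1P, fn0 gaP⟩

theorem contDiff_monE {E α : Type} [NormedAddCommGroup E] [NormedSpace ℝ E] {f : E → α → ℝ}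
    {x : E → ℝ} (hx : ContDiff ℝ ∞ x) (hf : ∀ a, ContDiff ℝ ∞ fun v => f v a) :
    ∀ p : List α, ContDiff ℝ ∞ fun v => monE (f v) (x v) p
  | [] => by simpa [monE] using contDiff_const
  | a :: p => by simpa [monE] using (hf a).add (hx.mul (contDiff_monE hx hf p))

theorem contDiff_ev (p : P3 ℤ) : ContDiff ℝ ∞ fun v : Fin 3 → ℝ => ev (v 0) (v 1) 0 p :=
  contDiff_monE (contDiff_apply ℝ ℝ (0 : Fin 3))
    (fun r => contDiff_monE (f := fun _ q => monE (fun a : ℤ => (a : ℝ)) 0 q)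
      (contDiff_apply ℝ ℝ (1 : Fin 3)) (fun _ => contDiff_const) r) p

theorem contDiff_fn0 (p : P3 ℤ) : ContDiff ℝ ∞ (fn0 p) := (contDiff_ev p).div_const _

theorem contDiff_fn1 (p q : P3 ℤ) : ContDiff ℝ ∞ (fn1 p q) :=
  ((contDiff_ev p).add ((contDiff_apply ℝ ℝ (2 : Fin 3)).mul (contDiff_ev q))).div_const _

theorem cert_smooth : cert.Smooth :=
  ⟨contDiff_fn0 _, contDiff_fn0 _, contDiff_fn1 _ _, contDiff_fn1 _ _, contDiff_fn0 _⟩

theorem pd_of_curve {f : (Fin 3 → ℝ) → ℝ} {v : Fin 3 → ℝ} (hf : ContDiff ℝ ∞ f) {a : Fin 3} {r : ℝ}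
    (h : HasDerivAt (fun t => f (Function.update v a t)) r (v a)) : pd f a v = r := by
  have h1 := (hf.differentiable (by simp) (Function.update v a (v a))).hasFDerivAt.comp_hasDerivAt
    (v a) (hasDerivAt_update v a (v a))
  rw [Function.update_eq_self] at h1
  exact h1.unique h

variable {p q : P3 ℤ} (v : Fin 3 → ℝ) (L : ℝ)

theorem pd_fn0_zero (hp : flat p = true) : pd (fn0 p) 0 v = ev (v 0) (v 1) L (dW p) / 4096 := by
  refine pd_of_curve (contDiff_fn0 p) ?_
  simp [fn0, ← ev_flat hp _ _ L]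
  exact (hasDerivAt_ev_w _ _ _ _).div_const _

theorem pd_fn0_one (hp : flat p = true) : pd (fn0 p) 1 v = ev (v 0) (v 1) L (dD p) / 4096 := by
  refine pd_of_curve (contDiff_fn0 p) ?_
  simp [fn0, ← ev_flat hp _ _ L]
  exact (hasDerivAt_ev_D _ _ _ _).div_const _

theorem pd_fn0_two (p : P3 ℤ) : pd (fn0 p) 2 v = 0 := by
  refine pd_of_curve (contDiff_fn0 p) ?_
  simpa [fn0] using hasDerivAt_const (v 2) (ev (v 0) (v 1) 0 p / 4096)

theorem pd_fn1_zero (hp : flat p = true) (hq : flat q = true) :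
    pd (fn1 p q) 0 v = (ev (v 0) (v 1) L (dW p) + v 2 * ev (v 0) (v 1) L (dW q)) / 4096 := by
  refine pd_of_curve (contDiff_fn1 p q) ?_
  simp [fn1, ← ev_flat hp _ _ L, ← ev_flat hq _ _ L]
  exact ((hasDerivAt_ev_w _ _ _ _).fun_add ((hasDerivAt_ev_w _ _ _ _).const_mul _)).div_const _

theorem pd_fn1_one (hp : flat p = true) (hq : flat q = true) :
    pd (fn1 p q) 1 v = (ev (v 0) (v 1) L (dD p) + v 2 * ev (v 0) (v 1) L (dD q)) / 4096 := by
  refine pd_of_curve (contDiff_fn1 p q) ?_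
  simp [fn1, ← ev_flat hp _ _ L, ← ev_flat hq _ _ L]
  exact ((hasDerivAt_ev_D _ _ _ _).fun_add ((hasDerivAt_ev_D _ _ _ _).const_mul _)).div_const _

theorem pd_fn1_two (hq : flat q = true) :
    pd (fn1 p q) 2 v = ev (v 0) (v 1) L q / 4096 := by
  refine pd_of_curve (contDiff_fn1 p q) ?_
  simp [fn1, ← ev_flat hq _ _ L]
  simpa using (((hasDerivAt_id (v 2)).mul_const (ev (v 0) (v 1) L q)).const_add
    (ev (v 0) (v 1) 0 p)).div_const (4096 : ℝ)

theorem pd_fn0_zero_fun (hp : flat p = true) : pd (fn0 p) 0 = fn0 (dW p) :=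
  funext fun y => pd_fn0_zero y 0 hp

theorem pd_fn0_one_fun (hp : flat p = true) : pd (fn0 p) 1 = fn0 (dD p) :=
  funext fun y => pd_fn0_one y 0 hp

theorem pd_fn0_two_fun (p : P3 ℤ) : pd (fn0 p) 2 = fn0 [] :=
  funext fun y => by rw [pd_fn0_two]; simp [fn0, ev, ev3, monE]

theorem pd_fn0_nil (a : Fin 3) : pd (fn0 []) a v = 0 := by
  refine pd_of_curve (contDiff_fn0 []) ?_
  simpa [fn0, ev, ev3, monE] using hasDerivAt_const (v a) (0 : ℝ)

end

end Vale.Agent.P098.Five
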