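import Mathlib

/-!
# P098, five dimensions: polynomials as nested lists, for exact checks by evaluation

A list is read either by Horner (`monE`) or as the coefficients of a binary form (`homE`). The
operations are structurally recursive, so that the kernel can run them.
-/

namespace Vale.Agent.P098.Five

/-- Data of a module over the integers. -/
class Mdl (α : Type) where
  zero : α
  add : α → α → α
  smul : ℤ → α → α

open Mdl (zero add smul)

instance : Mdl ℤ := ⟨0, (· + ·), (· * ·)⟩

/-- Termwise sum, the shorter list padded by zeros. -/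
def zadd {α : Type} [Mdl α] : List α → List α → List α
  | [], q => q
  | p, [] => p
  | a :: p, b :: q => add a b :: zadd p q

instance {α : Type} [Mdl α] : Mdl (List α) := ⟨[], zadd, fun c p => p.map (smul c)⟩

/-- A reading that respects the operations. -/
structure IsLin {α : Type} [Mdl α] (f : α → ℝ) : Prop where
  zero : f zero = 0
  add : ∀ a b, f (add a b) = f a + f b
  smul : ∀ (c : ℤ) a, f (smul c a) = c * f a

theorem isLin_int : IsLin (fun a : ℤ => (a : ℝ)) :=
  ⟨Int.cast_zero, fun a b => Int.cast_add a b, fun c a => Int.cast_mul c a⟩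

variable {α β : Type} [Mdl α] {f : α → ℝ}

/-- Horner's reading. -/
def monE (f : α → ℝ) (x : ℝ) : List α → ℝ
  | [] => 0
  | a :: p => f a + x * monE f x p

/-- The binary form of degree `n` with the given coefficients. -/
def homE (f : α → ℝ) (x y : ℝ) : ℕ → List α → ℝ
  | _, [] => 0
  | 0, a :: _ => f a
  | n + 1, a :: p => f a * y ^ (n + 1) + x * homE f x y n p

theorem monE_zadd (hf : IsLin f) (x : ℝ) : ∀ p q, monE f x (zadd p q) = monE f x p + monE f x q
  | [], q => by simp [zadd, monE]
  | a :: p, [] => by simp [zadd, monE]
  | a :: p, b :: q => by simp only [zadd, monE, hf.add, monE_zadd hf x p q]; ring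

theorem monE_map_smul (hf : IsLin f) (x : ℝ) (c : ℤ) :
    ∀ p, monE f x (p.map (smul c)) = c * monE f x p
  | [] => by simp [monE]
  | a :: p => by simp only [List.map_cons, monE, hf.smul, monE_map_smul hf x c p]; ring

theorem IsLin.mon (hf : IsLin f) (x : ℝ) : IsLin (monE f x) :=
  ⟨rfl, monE_zadd hf x, fun c p => monE_map_smul hf x c p⟩

theorem homE_zadd (hf : IsLin f) (x y : ℝ) :
    ∀ n p q, homE f x y n (zadd p q) = homE f x y n p + homE f x y n q
  | n, [], q => by cases n <;> simp [zadd, homE]
  | n, a :: p, [] => by cases n <;> simp [zadd, homE]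
  | 0, a :: p, b :: q => by simp [zadd, homE, hf.add]
  | n + 1, a :: p, b :: q => by simp only [zadd, homE, hf.add, homE_zadd hf x y n p q]; ring

theorem homE_map_smul (hf : IsLin f) (x y : ℝ) (c : ℤ) :
    ∀ n p, homE f x y n (p.map (smul c)) = c * homE f x y n p
  | n, [] => by cases n <;> simp [homE]
  | 0, a :: p => by simp [homE, hf.smul]
  | n + 1, a :: p => by simp only [List.map_cons, homE, hf.smul, homE_map_smul hf x y c n p]; ring

omit [Mdl α] in
theorem homE_nil (f : α → ℝ) (x y : ℝ) (n : ℕ) : homE f x y n [] = 0 := by cases n <;> rfl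

theorem IsLin.hom (hf : IsLin f) (x y : ℝ) (n : ℕ) : IsLin (homE f x y n) :=
  ⟨homE_nil f x y n, homE_zadd hf x y n, fun c p => homE_map_smul hf x y c n p⟩

theorem homE_zero_cons (hf : IsLin f) (x y : ℝ) (n : ℕ) (p : List α) :
    homE f x y (n + 1) (zero :: p) = x * homE f x y n p := by simp [homE, hf.zero]

omit [Mdl α] in
theorem homE_take (f : α → ℝ) (x y : ℝ) :
    ∀ n p, homE f x y (n + 1) (p.take (n + 1)) = y * homE f x y n p
  | n, [] => by cases n <;> simp [homE]
  | 0, a :: p => by simp [homE]; ring
  | n + 1, a :: p => by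
      simp only [List.take_succ_cons, homE]
      rw [homE_take f x y n p]; ring

/-! ### The transformations -/

/-- A multiple of each entry of an integer row. -/
def rowMul (r : List ℤ) (a : α) : List α := r.map (fun c => smul c a)

theorem homE_rowMul (hf : IsLin f) (x y : ℝ) :
    ∀ n r (a : α), homE f x y n (rowMul r a) = homE (fun c : ℤ => (c : ℝ)) x y n r * f a
  | n, [], a => by cases n <;> simp [rowMul, homE]
  | 0, c :: r, a => by simp [rowMul, homE, hf.smul]
  | n + 1, c :: r, a => by
      have := homE_rowMul hf x y n r a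
      simp only [rowMul, List.map_cons, homE, hf.smul] at this ⊢
      rw [this]; ring

/-- The coefficients of `(x + c y) ^ n`. -/
def binRow (c : ℤ) : ℕ → List ℤ
  | 0 => [1]
  | n + 1 => zadd ((binRow c n).map (c * ·) |>.take (n + 1)) (0 :: binRow c n)

theorem homE_binRow (c : ℤ) (x y : ℝ) :
    ∀ n, homE (fun a : ℤ => (a : ℝ)) x y n (binRow c n) = (x + c * y) ^ n
  | 0 => by simp [binRow, homE]
  | n + 1 => by
      have h := homE_map_smul isLin_int x y c n (binRow c n)
      have hz := homE_zero_cons isLin_int x y n (binRow c n)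
      rw [binRow, homE_zadd isLin_int, homE_take]
      change y * homE _ x y n ((binRow c n).map (smul c)) + homE _ x y (n + 1) (zero :: binRow c n) = _
      rw [h, hz, homE_binRow c x y n]; ring

/-- From monomial to binary-form coefficients of degree `n`. -/
def toH : ℕ → List α → List α
  | _, [] => []
  | 0, a :: _ => [a]
  | n + 1, a :: p => zadd (rowMul (binRow 1 (n + 1)) a) (zero :: toH n p)

theorem homE_toH (hf : IsLin f) (s : ℝ) :
    ∀ n p, p.length ≤ n + 1 → homE f s (1 - s) n (toH n p) = monE f s p
  | n, [], _ => by cases n <;> simp [toH, homE, monE]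
  | 0, a :: p, h => by
      have : p = [] := List.length_eq_zero_iff.1 (by simp only [List.length_cons] at h; omega)
      simp [this, toH, homE, monE]
  | n + 1, a :: p, h => by
      rw [toH, homE_zadd hf, homE_rowMul hf, homE_binRow, homE_zero_cons hf,
        homE_toH hf s n p (by simpa using h), monE]
      simp

/-- The first half of the interval. -/
def halfL : ℕ → List α → List α
  | _, [] => []
  | 0, a :: _ => [a]
  | n + 1, a :: p => zadd (rowMul (binRow 2 (n + 1)) a) (zero :: halfL n p)

theorem homE_halfL (hf : IsLin f) (x y : ℝ) :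
    ∀ n p, homE f x y n (halfL n p) = homE f x (x + 2 * y) n p
  | n, [] => by cases n <;> simp [halfL, homE]
  | 0, a :: p => by simp [halfL, homE]
  | n + 1, a :: p => by
      rw [halfL, homE_zadd hf, homE_rowMul hf, homE_binRow, homE_zero_cons hf, homE_halfL hf x y n p,
        homE]
      push_cast; ring

/-- The second half of the interval. -/
def halfR : ℕ → List α → List α
  | _, [] => []
  | 0, a :: _ => [a]
  | n + 1, a :: p =>
      zadd [a] (zadd ((halfR n p).take (n + 1)) (zero :: (halfR n p).map (smul 2)))

theorem homE_halfR (hf : IsLin f) (x y : ℝ) :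
    ∀ n p, homE f x y n (halfR n p) = homE f (2 * x + y) y n p
  | n, [] => by cases n <;> simp [halfR, homE]
  | 0, a :: p => by simp [halfR, homE]
  | n + 1, a :: p => by
      rw [halfR, homE_zadd hf, homE_zadd hf, homE_take, homE_zero_cons hf, homE_map_smul hf,
        homE_halfR hf x y n p]
      simp [homE, homE_nil]; ring

omit [Mdl α] in
theorem homE_scale (f : α → ℝ) (k x y : ℝ) :
    ∀ n p, homE f (k * x) (k * y) n p = k ^ n * homE f x y n p
  | n, [] => by cases n <;> simp [homE]
  | 0, a :: p => by simp [homE]
  | n + 1, a :: p => by simp only [homE, homE_scale f k x y n p]; ring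

/-- `den ^ n` times the polynomial at `(A + H t) / den`, as a polynomial in `t`. -/
def affine (A H den : ℤ) : List α → List α
  | [] => []
  | a :: p =>
      let v := affine A H den p
      zadd [smul (den ^ p.length) a] (zadd (v.map (smul A)) (zero :: v.map (smul H)))

theorem monE_affine (hf : IsLin f) (A H den : ℤ) (x t : ℝ) (hx : (den : ℝ) * x = A + H * t) :
    ∀ p : List α, monE f t (affine A H den p) * den = (den : ℝ) ^ p.length * monE f x p
  | [] => by simp [affine, monE]
  | a :: p => by
      have ih := monE_affine hf A H den x t hx p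
      simp only [affine, monE_zadd hf, monE, hf.smul, hf.zero, monE_map_smul hf, List.length_cons,
        Int.cast_pow]
      linear_combination (A + H * t : ℝ) * ih - ((den : ℝ) ^ p.length * monE f x p) * hx

omit [Mdl α] in
theorem monE_map (g : β → α) (f : α → ℝ) (x : ℝ) :
    ∀ p : List β, monE f x (p.map g) = monE (fun a => f (g a)) x p
  | [] => by simp [monE]
  | a :: p => by simp [monE, monE_map g f x p]

omit [Mdl α] in
theorem homE_map (g : β → α) (f : α → ℝ) (x y : ℝ) :
    ∀ n (p : List β), homE f x y n (p.map g) = homE (fun a => f (g a)) x y n p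
  | n, [] => by cases n <;> simp [homE]
  | 0, a :: p => by simp [homE]
  | n + 1, a :: p => by simp [homE, homE_map g f x y n p]

omit [Mdl α] in
theorem monE_congr {f g : α → ℝ} {c : ℝ} (x : ℝ) :
    ∀ p : List α, (∀ a ∈ p, f a = c * g a) → monE f x p = c * monE g x p
  | [], _ => by simp [monE]
  | a :: p, h => by
      simp only [monE, h a (by simp), monE_congr x p fun b hb => h b (by simp [hb])]; ring

omit [Mdl α] in
theorem homE_congr {f g : α → ℝ} {c : ℝ} (x y : ℝ) :
    ∀ n (p : List α), (∀ a ∈ p, f a = c * g a) → homE f x y n p = c * homE g x y n p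
  | n, [], _ => by cases n <;> simp [homE]
  | 0, a :: p, h => by simp [homE, h a (by simp)]
  | n + 1, a :: p, h => by
      simp only [homE, h a (by simp), homE_congr x y n p fun b hb => h b (by simp [hb])]; ring

omit [Mdl α] in
theorem homE_nonneg {x y : ℝ} (hx : 0 ≤ x) (hy : 0 ≤ y) :
    ∀ n (p : List α), (∀ a ∈ p, 0 ≤ f a) → 0 ≤ homE f x y n p
  | n, [], _ => by cases n <;> simp [homE]
  | 0, a :: p, h => by simpa [homE] using h a (by simp)
  | n + 1, a :: p, h => by
      have h1 := h a (by simp)
      have h2 := homE_nonneg hx hy n p fun b hb => h b (by simp [hb])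
      simp only [homE]; positivity

/-- A product of polynomials, given one of coefficients. -/
def pmul (m : α → α → α) : List α → List α → List α
  | [], _ => []
  | a :: p, q => zadd (q.map (m a)) (zero :: pmul m p q)

theorem monE_pmul (hf : IsLin f) {m : α → α → α} (hm : ∀ a b, f (m a b) = f a * f b) (x : ℝ) :
    ∀ p q, monE f x (pmul m p q) = monE f x p * monE f x q
  | [], q => by simp [pmul, monE]
  | a :: p, q => by
      have h : ∀ q, monE f x (q.map (m a)) = f a * monE f x q := fun q => by
        rw [monE_map]; exact monE_congr x q fun b _ => hm a b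
      simp only [pmul, monE_zadd hf, monE, hf.zero, monE_pmul hf hm x p q, h]; ring

/-- The derivative. -/
def pderiv : List α → List α
  | [] => []
  | _ :: p => zadd p (zero :: pderiv p)

theorem hasDerivAt_monE (hf : IsLin f) (x : ℝ) :
    ∀ p : List α, HasDerivAt (fun t => monE f t p) (monE f x (pderiv p)) x
  | [] => by simpa [monE, pderiv] using hasDerivAt_const x (0 : ℝ)
  | a :: p => by
      have h := ((hasDerivAt_id x).mul (hasDerivAt_monE hf x p)).const_add (f a)
      simp only [monE, pderiv, monE_zadd hf, hf.zero]
      refine h.congr_deriv ?_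
      simp

end Vale.Agent.P098.Five
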