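import Vale.Agent.P098.Five.Q0LTree

/-!
# P098, five dimensions: the interior form, interval 0, lower bound on the invariant, part 1
-/

namespace Vale.Agent.P098.Five

set_option linter.style.longLine false

theorem run0Laaaa :
    run root0L sub0Laaaa 0 2 1 2
      ((halfL 4 ((halfL 4 (conv3 root0L (trim3 (quadForm T0L)))).map (halfL 5))).map (halfL 5)) = true := by
  decide +kernel

theorem run0Laaab :
    run root0L sub0Laaab 0 2 2 2
      ((halfL 4 ((halfL 4 (conv3 root0L (trim3 (quadForm T0L)))).map (halfL 5))).map (halfR 5)) = true := by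
  decide +kernel

theorem run0Laaba :
    run root0L sub0Laaba 1 2 1 2
      ((halfR 4 ((halfL 4 (conv3 root0L (trim3 (quadForm T0L)))).map (halfL 5))).map (halfL 5)) = true := by
  decide +kernel

theorem run0Laabb :
    run root0L sub0Laabb 1 2 2 2
      ((halfR 4 ((halfL 4 (conv3 root0L (trim3 (quadForm T0L)))).map (halfL 5))).map (halfR 5)) = true := by
  decide +kernel

theorem run0Labaaa :
    run root0L sub0Labaaa 0 3 2 1
      (halfL 4 ((halfL 4 ((halfL 4 (conv3 root0L (trim3 (quadForm T0L)))).map (halfR 5))).map fun r => r.map (halfL 5))) = true := by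
  decide +kernel

theorem run0Labaaba :
    run root0L sub0Labaaba 1 3 2 1
      ((halfR 4 ((halfL 4 ((halfL 4 (conv3 root0L (trim3 (quadForm T0L)))).map (halfR 5))).map fun r => r.map (halfL 5))).map fun r => r.map (halfL 5)) = true := by
  decide +kernel

end Vale.Agent.P098.Five
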