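import Vale.Agent.P098.Five.Bounds

/-!
# P098, five dimensions: the interior form, interval 0, lower bound on the invariant: subdivision
-/

namespace Vale.Agent.P098.Five

/-- The root box. -/
def root0L : Root := ⟨4, 5, 5, -867, 434, 1000⟩

/-- A part of the subdivision. -/
def sub0Laaaa : Tree :=
    (.node₀ (.node₂ (.node₀ (.node₁ .leaf .leaf) (.node₁ .leaf .leaf)) .leaf) (.node₂ .leaf
    .leaf))

/-- A part of the subdivision. -/
def sub0Laaab : Tree :=
    (.node₀ .leaf (.node₀ (.node₁ .leaf .leaf) (.node₁ .leaf .leaf)))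

/-- A part of the subdivision. -/
def sub0Laaba : Tree :=
    (.node₀ .leaf (.node₁ .skip .leaf))

/-- A part of the subdivision. -/
def sub0Laabb : Tree :=
    (.node₀ (.node₂ (.node₀ (.node₂ .leaf .leaf) .leaf) (.node₀ (.node₁ .leaf .leaf) .leaf))
    .leaf)

/-- A part of the subdivision. -/
def sub0Labaaa : Tree :=
    (.node₁ .leaf (.node₁ .leaf (.node₁ .leaf .leaf)))

/-- A part of the subdivision. -/
def sub0Labaaba : Tree :=
    (.node₁ (.node₀ .leaf .leaf) (.node₁ .leaf (.node₁ .leaf (.node₂ (.node₀ (.node₁ .leaf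
    .leaf) .leaf) .leaf))))

/-- A part of the subdivision. -/
def sub0Labaabb : Tree :=
    .leaf

/-- A part of the subdivision. -/
def sub0Labab : Tree :=
    .leaf

/-- A part of the subdivision. -/
def sub0Labbaa : Tree :=
    (.node₀ (.node₁ (.node₂ .leaf .leaf) .leaf) (.node₂ (.node₂ .leaf .leaf) (.node₁ .leaf
    .leaf)))

/-- A part of the subdivision. -/
def sub0Labbab : Tree :=
    (.node₀ .leaf (.node₂ (.node₂ (.node₁ (.node₀ .leaf .leaf) .leaf) .leaf) .leaf))

/-- A part of the subdivision. -/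
def sub0Labbb : Tree :=
    (.node₁ (.node₂ .leaf (.node₀ .leaf .leaf)) (.node₂ .leaf .leaf))

/-- A part of the subdivision. -/
def sub0Lb : Tree :=
    (.node₁ (.node₁ .skip (.node₀ .leaf .skip)) .leaf)

/-- The subdivision. -/
def treeQ0L : Tree :=
    (.node₀ (.node₁ (.node₀ (.node₁ sub0Laaaa sub0Laaab) (.node₁ sub0Laaba sub0Laabb)) (.node₀
    (.node₂ (.node₀ sub0Labaaa (.node₂ sub0Labaaba sub0Labaabb)) sub0Labab) (.node₀ (.node₁
    sub0Labbaa sub0Labbab) sub0Labbb))) sub0Lb)

end Vale.Agent.P098.Five
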