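import Vale.Agent.P098.Five.Bounds

/-!
# P098, five dimensions: the interior form, interval 0, upper bound on the invariant: subdivision
-/

namespace Vale.Agent.P098.Five

/-- The root box. -/
def root0U : Root := ⟨4, 5, 5, -867, 434, 1000⟩

/-- A part of the subdivision. -/
def sub0Uaaaaaaa : Tree :=
    (.node₂ (.node₁ .leaf .leaf) (.node₁ (.node₀ .leaf .leaf) .leaf))

/-- A part of the subdivision. -/
def sub0Uaaaaaab : Tree :=
    (.node₂ .leaf (.node₁ .leaf (.node₂ .leaf .leaf)))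

/-- A part of the subdivision. -/
def sub0Uaaaaab : Tree :=
    (.node₀ .leaf (.node₂ (.node₁ .leaf .leaf) (.node₁ (.node₂ .leaf .leaf) .leaf)))

/-- A part of the subdivision. -/
def sub0Uaaaaba : Tree :=
    .leaf

/-- A part of the subdivision. -/
def sub0Uaaaabba : Tree :=
    (.node₂ (.node₁ .leaf .leaf) (.node₁ (.node₂ .leaf .leaf) (.node₂ .leaf .leaf)))

/-- A part of the subdivision. -/
def sub0Uaaaabbb : Tree :=
    (.node₂ .leaf (.node₁ .leaf (.node₂ .leaf .leaf)))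

/-- A part of the subdivision. -/
def sub0Uaaaba : Tree :=
    .leaf

/-- A part of the subdivision. -/
def sub0Uaaabb : Tree :=
    (.node₀ (.node₁ (.node₂ .leaf .leaf) .leaf) (.node₁ (.node₂ .leaf (.node₁ (.node₂ .leaf
    .leaf) .leaf)) .leaf))

/-- A part of the subdivision. -/
def sub0Uaaba : Tree :=
    (.node₁ (.node₀ .leaf .skip) .leaf)

/-- A part of the subdivision. -/
def sub0Uaabbaa : Tree :=
    (.node₁ .leaf (.node₀ .leaf .leaf))

/-- A part of the subdivision. -/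
def sub0Uaabbaba : Tree :=
    (.node₁ (.node₁ (.node₂ .leaf .leaf) (.node₂ .leaf (.node₂ .leaf .leaf))) (.node₂ .leaf
    .leaf))

/-- A part of the subdivision. -/
def sub0Uaabbabb : Tree :=
    (.node₁ .leaf (.node₂ .leaf (.node₀ (.node₂ .leaf .leaf) .leaf)))

/-- A part of the subdivision. -/
def sub0Uaabbb : Tree :=
    (.node₂ .leaf .leaf)

/-- A part of the subdivision. -/
def sub0Uabaaa : Tree :=
    (.node₁ .leaf (.node₁ .leaf (.node₁ .leaf .leaf)))

/-- A part of the subdivision. -/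
def sub0Uabaab : Tree :=
    (.node₂ (.node₁ (.node₀ .leaf .leaf) (.node₁ .leaf (.node₀ (.node₁ .leaf (.node₁ .leaf
    .leaf)) .leaf))) .leaf)

/-- A part of the subdivision. -/
def sub0Uabab : Tree :=
    .leaf

/-- A part of the subdivision. -/
def sub0Uabbaa : Tree :=
    (.node₀ (.node₁ .leaf .leaf) (.node₂ .leaf (.node₁ (.node₂ .leaf .leaf) .leaf)))

/-- A part of the subdivision. -/
def sub0Uabbab : Tree :=
    (.node₀ .leaf (.node₁ .leaf .leaf))

/-- A part of the subdivision. -/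
def sub0Uabbbaa : Tree :=
    .leaf

/-- A part of the subdivision. -/
def sub0Uabbbaba : Tree :=
    (.node₁ (.node₂ .leaf (.node₀ (.node₂ .leaf .leaf) .leaf)) (.node₂ .leaf (.node₀ .leaf
    (.node₂ .leaf .leaf))))

/-- A part of the subdivision. -/
def sub0Uabbbabb : Tree :=
    (.node₁ .leaf (.node₂ .leaf (.node₀ (.node₂ .leaf .leaf) .leaf)))

/-- A part of the subdivision. -/
def sub0Uabbbb : Tree :=
    (.node₂ .leaf (.node₀ .leaf (.node₂ .leaf (.node₁ (.node₂ .leaf .leaf) .leaf))))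

/-- A part of the subdivision. -/
def sub0Ub : Tree :=
    (.node₁ (.node₁ .skip (.node₀ .leaf .skip)) (.node₀ (.node₁ .leaf (.node₀ (.node₁ .leaf
    .leaf) .leaf)) .leaf))

/-- The subdivision. -/
def treeQ0U : Tree :=
    (.node₀ (.node₁ (.node₀ (.node₁ (.node₀ (.node₁ (.node₀ sub0Uaaaaaaa sub0Uaaaaaab)
    sub0Uaaaaab) (.node₁ sub0Uaaaaba (.node₀ sub0Uaaaabba sub0Uaaaabbb))) (.node₀ sub0Uaaaba
    sub0Uaaabb)) (.node₁ sub0Uaaba (.node₀ (.node₂ sub0Uaabbaa (.node₀ sub0Uaabbaba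
    sub0Uaabbabb)) sub0Uaabbb))) (.node₀ (.node₂ (.node₀ sub0Uabaaa sub0Uabaab) sub0Uabab)
    (.node₀ (.node₁ sub0Uabbaa sub0Uabbab) (.node₁ (.node₂ sub0Uabbbaa (.node₀ sub0Uabbbaba
    sub0Uabbbabb)) sub0Uabbbb)))) sub0Ub)

end Vale.Agent.P098.Five
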