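import Vale.Agent.P098.Five.Q1LTree

/-!
# P098, five dimensions: the interior form, interval 1, lower bound on the invariant, part 1
-/

namespace Vale.Agent.P098.Five

set_option linter.style.longLine false

theorem run1Laa :
    run root1L sub1Laa 0 2 1 0
      (halfL 4 (halfL 4 (conv3 root1L (trim3 (quadForm T1L))))) = true := by
  decide +kernel

theorem run1Lab :
    run root1L sub1Lab 1 2 1 0
      (halfR 4 (halfL 4 (conv3 root1L (trim3 (quadForm T1L))))) = true := by
  decide +kernel

theorem run1Lb :
    run root1L sub1Lb 1 1 1 0
      (halfR 4 (conv3 root1L (trim3 (quadForm T1L)))) = true := by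
  decide +kernel

end Vale.Agent.P098.Five
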