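import Vale.Agent.P098.Five.Bounds

/-!
# P098, five dimensions: the interior form, interval 1, lower bound on the invariant: subdivision
-/

namespace Vale.Agent.P098.Five

/-- The root box. -/
def root1L : Root := ⟨4, 5, 5, -433, 433, 1000⟩

/-- A part of the subdivision. -/
def sub1Laa : Tree :=
    (.node₁ (.node₁ .leaf .leaf) (.node₁ .leaf (.node₀ .leaf .leaf)))

/-- A part of the subdivision. -/
def sub1Lab : Tree :=
    (.node₁ (.node₁ (.node₁ (.node₁ .skip .leaf) .leaf) (.node₀ .leaf .leaf)) (.node₀ (.node₁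
    .leaf .leaf) .leaf))

/-- A part of the subdivision. -/
def sub1Lb : Tree :=
    (.node₁ (.node₁ .skip .leaf) .leaf)

/-- The subdivision. -/
def treeQ1L : Tree :=
    (.node₀ (.node₀ sub1Laa sub1Lab) sub1Lb)

end Vale.Agent.P098.Five
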