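import Vale.Agent.P098.Five.Q1UTree

/-!
# P098, five dimensions: the interior form, interval 1, upper bound on the invariant, part 1
-/

namespace Vale.Agent.P098.Five

set_option linter.style.longLine false

theorem run1Uaaaaaa :
    run root1U sub1Uaaaaaa 0 3 1 2
      (halfL 4 ((((halfL 4 (halfL 4 (conv3 root1U (trim3 (quadForm T1U))))).map (halfL 5)).map (halfL 5)).map fun r => r.map (halfL 5))) = true := by
  decide +kernel

theorem run1Uaaaaab :
    run root1U sub1Uaaaaab 1 3 1 2
      (halfR 4 ((((halfL 4 (halfL 4 (conv3 root1U (trim3 (quadForm T1U))))).map (halfL 5)).map (halfL 5)).map fun r => r.map (halfL 5))) = true := by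
  decide +kernel

theorem run1Uaaaab :
    run root1U sub1Uaaaab 0 2 1 2
      ((((halfL 4 (halfL 4 (conv3 root1U (trim3 (quadForm T1U))))).map (halfL 5)).map (halfL 5)).map fun r => r.map (halfR 5)) = true := by
  decide +kernel

theorem run1Uaaab :
    run root1U sub1Uaaab 0 2 2 2
      (((halfL 4 (halfL 4 (conv3 root1U (trim3 (quadForm T1U))))).map (halfL 5)).map (halfR 5)) = true := by
  decide +kernel

theorem run1Uaab :
    run root1U sub1Uaab 0 2 2 1
      ((halfL 4 (halfL 4 (conv3 root1U (trim3 (quadForm T1U))))).map (halfR 5)) = true := by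
  decide +kernel

theorem run1Uabaa :
    run root1U sub1Uabaa 1 2 1 2
      (((halfR 4 (halfL 4 (conv3 root1U (trim3 (quadForm T1U))))).map (halfL 5)).map (halfL 5)) = true := by
  decide +kernel

theorem run1Uabab :
    run root1U sub1Uabab 1 2 2 2
      (((halfR 4 (halfL 4 (conv3 root1U (trim3 (quadForm T1U))))).map (halfL 5)).map (halfR 5)) = true := by
  decide +kernel

end Vale.Agent.P098.Five
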