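import Vale.Agent.P098.Five.Bounds

/-!
# P098, five dimensions: the interior form, interval 1, upper bound on the invariant: subdivision
-/

namespace Vale.Agent.P098.Five

/-- The root box. -/
def root1U : Root := ⟨4, 5, 5, -433, 433, 1000⟩

/-- A part of the subdivision. -/
def sub1Uaaaaaa : Tree :=
    (.node₁ (.node₀ (.node₁ .leaf .leaf) (.node₁ (.node₂ .leaf .leaf) .leaf)) .leaf)

/-- A part of the subdivision. -/
def sub1Uaaaaab : Tree :=
    (.node₁ (.node₂ .leaf .leaf) (.node₀ .leaf (.node₁ .leaf .leaf)))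

/-- A part of the subdivision. -/
def sub1Uaaaab : Tree :=
    (.node₀ .leaf (.node₁ (.node₂ .leaf .leaf) .leaf))

/-- A part of the subdivision. -/
def sub1Uaaab : Tree :=
    (.node₀ .leaf .leaf)

/-- A part of the subdivision. -/
def sub1Uaab : Tree :=
    (.node₁ .leaf (.node₂ .leaf .leaf))

/-- A part of the subdivision. -/
def sub1Uabaa : Tree :=
    (.node₂ (.node₀ (.node₂ .leaf .leaf) .leaf) .leaf)

/-- A part of the subdivision. -/
def sub1Uabab : Tree :=
    (.node₂ (.node₀ (.node₁ (.node₀ (.node₁ .leaf .leaf) .leaf) (.node₀ .leaf .leaf)) .leaf)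
    .leaf)

/-- A part of the subdivision. -/
def sub1Uabba : Tree :=
    .leaf

/-- A part of the subdivision. -/
def sub1Uabbba : Tree :=
    (.node₁ (.node₂ (.node₀ (.node₁ .leaf .leaf) (.node₁ .leaf .leaf)) .leaf) (.node₀ .leaf
    (.node₁ .leaf .leaf)))

/-- A part of the subdivision. -/
def sub1Uabbbb : Tree :=
    .leaf

/-- A part of the subdivision. -/
def sub1Uba : Tree :=
    (.node₁ .skip .leaf)

/-- A part of the subdivision. -/
def sub1Ubb : Tree :=
    (.node₀ (.node₀ (.node₁ .leaf (.node₀ (.node₂ (.node₁ .leaf .leaf) .leaf) (.node₂ .leaf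
    .leaf))) .leaf) .leaf)

/-- The subdivision. -/
def treeQ1U : Tree :=
    (.node₀ (.node₀ (.node₁ (.node₁ (.node₂ (.node₀ sub1Uaaaaaa sub1Uaaaaab) sub1Uaaaab)
    sub1Uaaab) sub1Uaab) (.node₁ (.node₁ sub1Uabaa sub1Uabab) (.node₀ sub1Uabba (.node₂
    sub1Uabbba sub1Uabbbb)))) (.node₁ sub1Uba sub1Ubb))

end Vale.Agent.P098.Five
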