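import Vale.Agent.P098.Five.Q2UTree

/-!
# P098, five dimensions: the interior form, interval 2, upper bound on the invariant, part 1
-/

namespace Vale.Agent.P098.Five

set_option linter.style.longLine false

theorem run2U :
    run root2U sub2U 0 0 1 0
      (conv3 root2U (trim3 (quadForm T2U))) = true := by
  decide +kernel

end Vale.Agent.P098.Five
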