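import Vale.Agent.P098.Five.Bounds

/-!
# P098, five dimensions: the interior form, interval 2, upper bound on the invariant: subdivision
-/

namespace Vale.Agent.P098.Five

/-- The root box. -/
def root2U : Root := ⟨4, 5, 5, 0, 433, 1000⟩

/-- A part of the subdivision. -/
def sub2U : Tree :=
    (.node₀ (.node₁ (.node₀ .leaf .leaf) (.node₀ (.node₁ .leaf .leaf) .leaf)) .leaf)

/-- The subdivision. -/
def treeQ2U : Tree :=
    sub2U

end Vale.Agent.P098.Five
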