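import Vale.Agent.P098.Five.Bounds

/-!
# P098, five dimensions: the interior form, interval 4, lower bound on the invariant: subdivision
-/

namespace Vale.Agent.P098.Five

/-- The root box. -/
def root4L : Root := ⟨4, 5, 5, 700, 167, 1000⟩

/-- A part of the subdivision. -/
def sub4Laaa : Tree :=
    (.node₂ .leaf (.node₂ .leaf (.node₁ (.node₀ .leaf .leaf) (.node₀ .leaf .leaf))))

/-- A part of the subdivision. -/
def sub4Laaba : Tree :=
    (.node₂ .leaf (.node₀ (.node₀ .leaf (.node₂ .leaf (.node₁ (.node₁ .skip .leaf) .leaf)))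
    (.node₁ .skip (.node₀ .leaf (.node₁ .skip .leaf)))))

/-- A part of the subdivision. -/
def sub4Laabb : Tree :=
    (.node₀ (.node₁ .leaf .leaf) (.node₀ .leaf .leaf))

/-- A part of the subdivision. -/
def sub4Labaa : Tree :=
    .leaf

/-- A part of the subdivision. -/
def sub4Lababa : Tree :=
    (.node₁ (.node₂ .leaf (.node₂ .leaf (.node₁ (.node₀ .leaf .leaf) (.node₀ .leaf .leaf))))
    .leaf)

/-- A part of the subdivision. -/
def sub4Lababb : Tree :=
    (.node₁ .leaf (.node₀ (.node₁ .leaf .leaf) .leaf))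

/-- A part of the subdivision. -/
def sub4Labb : Tree :=
    (.node₀ (.node₁ .leaf .leaf) (.node₁ (.node₁ (.node₂ .leaf .leaf) .leaf) (.node₀ .leaf
    .leaf)))

/-- A part of the subdivision. -/
def sub4Lba : Tree :=
    (.node₁ .skip (.node₀ (.node₁ (.node₀ (.node₂ .leaf (.node₀ .leaf (.node₁ .skip .leaf)))
    .skip) .leaf) .skip))

/-- A part of the subdivision. -/
def sub4Lbb : Tree :=
    (.node₁ .leaf (.node₀ (.node₀ (.node₀ (.node₁ .leaf .leaf) .leaf) .leaf) .leaf))

/-- The subdivision. -/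
def treeQ4L : Tree :=
    (.node₀ (.node₁ (.node₀ sub4Laaa (.node₁ sub4Laaba sub4Laabb)) (.node₀ (.node₂ sub4Labaa
    (.node₀ sub4Lababa sub4Lababb)) sub4Labb)) (.node₁ sub4Lba sub4Lbb))

end Vale.Agent.P098.Five
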