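import Vale.Agent.P098.Five.Q4UTree

/-!
# P098, five dimensions: the interior form, interval 4, upper bound on the invariant, part 1
-/

namespace Vale.Agent.P098.Five

set_option linter.style.longLine false

theorem run4Uaaa :
    run root4U sub4Uaaa 0 2 1 1
      (halfL 4 ((halfL 4 (conv3 root4U (trim3 (quadForm T4U)))).map (halfL 5))) = true := by
  decide +kernel

theorem run4Uaaba :
    run root4U sub4Uaaba 1 2 1 2
      ((halfR 4 ((halfL 4 (conv3 root4U (trim3 (quadForm T4U)))).map (halfL 5))).map (halfL 5)) = true := by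
  decide +kernel

theorem run4Uaabb :
    run root4U sub4Uaabb 1 2 2 2
      ((halfR 4 ((halfL 4 (conv3 root4U (trim3 (quadForm T4U)))).map (halfL 5))).map (halfR 5)) = true := by
  decide +kernel

theorem run4Uabaaa :
    run root4U sub4Uabaaa 0 3 3 2
      ((halfL 4 (halfL 4 ((halfL 4 (conv3 root4U (trim3 (quadForm T4U)))).map (halfR 5)))).map (halfL 5)) = true := by
  decide +kernel

theorem run4Uabaab :
    run root4U sub4Uabaab 0 3 4 2
      ((halfL 4 (halfL 4 ((halfL 4 (conv3 root4U (trim3 (quadForm T4U)))).map (halfR 5)))).map (halfR 5)) = true := by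
  decide +kernel

end Vale.Agent.P098.Five
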