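import Vale.Agent.P098.Five.Bounds

/-!
# P098, five dimensions: the interior form, interval 4, upper bound on the invariant: subdivision
-/

namespace Vale.Agent.P098.Five

/-- The root box. -/
def root4U : Root := ⟨4, 5, 5, 700, 167, 1000⟩

/-- A part of the subdivision. -/
def sub4Uaaa : Tree :=
    (.node₂ .leaf (.node₂ .leaf (.node₁ (.node₀ .leaf .leaf) (.node₀ .leaf .leaf))))

/-- A part of the subdivision. -/
def sub4Uaaba : Tree :=
    (.node₂ .leaf (.node₀ (.node₀ .leaf (.node₂ .leaf (.node₁ (.node₁ .skip .leaf) .leaf)))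
    (.node₁ .skip (.node₀ .leaf (.node₁ .skip .leaf)))))

/-- A part of the subdivision. -/
def sub4Uaabb : Tree :=
    (.node₀ (.node₁ .leaf .leaf) (.node₁ .leaf .leaf))

/-- A part of the subdivision. -/
def sub4Uabaaa : Tree :=
    (.node₂ .leaf (.node₂ .leaf (.node₂ .leaf (.node₁ (.node₀ .leaf (.node₁ .leaf .leaf))
    (.node₀ .leaf .leaf)))))

/-- A part of the subdivision. -/
def sub4Uabaab : Tree :=
    .leaf

/-- A part of the subdivision. -/
def sub4Uabab : Tree :=
    (.node₁ .leaf (.node₀ (.node₁ .leaf .leaf) .leaf))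

/-- A part of the subdivision. -/
def sub4Uabb : Tree :=
    (.node₁ (.node₀ .leaf (.node₁ .leaf .leaf)) (.node₀ .leaf (.node₀ .leaf .leaf)))

/-- A part of the subdivision. -/
def sub4Uba : Tree :=
    (.node₁ .skip (.node₀ (.node₁ (.node₀ (.node₂ .leaf (.node₂ .leaf (.node₀ .leaf (.node₁
    .skip .leaf)))) .skip) .leaf) .skip))

/-- A part of the subdivision. -/
def sub4Ubb : Tree :=
    (.node₁ .leaf (.node₀ (.node₀ (.node₀ (.node₁ .leaf .leaf) .leaf) .leaf) .leaf))

/-- The subdivision. -/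
def treeQ4U : Tree :=
    (.node₀ (.node₁ (.node₀ sub4Uaaa (.node₁ sub4Uaaba sub4Uaabb)) (.node₀ (.node₀ (.node₁
    sub4Uabaaa sub4Uabaab) sub4Uabab) sub4Uabb)) (.node₁ sub4Uba sub4Ubb))

end Vale.Agent.P098.Five
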